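import Vale.Agent.Lib.PTM.Ex
import Vale.Agent.Lib.PolyTime.NatArith2
import Vale.Agent.Lib.PolyTime.Lists3

/-!
Approximable counting functions (typed layer), and the statement of the reduction of almost exact
sampling to approximate counting for self-reducible weights.
-/

namespace Vale.Agent.N308S

open Vale.Agent.Lib.PTM Vale.Agent.Lib.PolyTime

/-- `Z` has a randomised polynomial time estimator with relative error `1 / e` and failure
probability `2 ^ (-l)`; `e` and `l` are given in unary. -/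
def Apx {α : Type} [Enc α] (Z : α → ℕ) : Prop :=
  ∃ (f : (α × Un × Un) × List Bool → ℕ) (c : ℕ), PT ∅ f ∧ ∀ (x : α) (e l m : ℕ), 0 < e →
    pb c (esize x + e + l) ≤ m →
      1 - (1 / 2 : ℝ) ^ l ≤ Ex m fun ρ => ind (|(f ((x, ⟨e⟩, ⟨l⟩), ρ) : ℝ) - Z x| ≤ Z x / e)

/-- The words `s` of length `d x` can be sampled with probability `W (x, s) / W (x, [])` up to a
relative error `2 ^ (-l)`. -/
def Smp {α : Type} [Enc α] (d : α → ℕ) (W : α × List Bool → ℕ) : Prop :=
  ∃ (g : (α × Un) × List Bool → List Bool) (c : ℕ), PT ∅ g ∧ ∀ (x : α) (l m : ℕ),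
    pb c (esize x + l) ≤ m → 0 < W (x, []) → ∀ s : List Bool, s.length = d x →
      |Ex m (fun ρ => ind (g ((x, ⟨l⟩), ρ) = s)) - (W (x, s) : ℝ) / W (x, [])| ≤
        (1 / 2) ^ l * ((W (x, s) : ℝ) / W (x, []))

/-- Jerrum, Valiant, Vazirani: sampling from approximate counting. -/
def JVV : Prop :=
  ∀ (α : Type) [Enc α] (d : α → ℕ) (W w : α × List Bool → ℕ), PT ∅ d → PBd d → Apx W → PT ∅ w →
    (∀ x p, p.length < d x → W (x, p) = W (x, p ++ [false]) + W (x, p ++ [true])) →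
    (∀ x s, s.length = d x → w (x, s) = W (x, s)) → Smp d W

variable {α β : Type} [Enc α] [Enc β]

theorem Apx.congr {Z Z' : α → ℕ} (h : Apx Z) (e : ∀ x, Z x = Z' x) : Apx Z' := by
  rwa [← funext e]

theorem exists_pb_comp {r : β → α} (hr : PT ∅ r) (c : ℕ) :
    ∃ c', ∀ (y : β) (k : ℕ), pb c (esize (r y) + k) ≤ pb c' (esize y + k) := by
  obtain ⟨c₁, h₁⟩ := hr.pbd
  obtain ⟨c', h'⟩ := PB.exists_pb ((PB.pb c).comp ((PB.pb c₁).add PB.id))
  refine ⟨c', fun y k => le_trans (pb_mono c ?_) (h' _)⟩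
  have : esize (r y) ≤ pb c₁ (esize y + k) := (h₁ y).trans (pb_mono c₁ (Nat.le_add_right _ k))
  omega

theorem Apx.comp {Z : α → ℕ} (h : Apx Z) {r : β → α} (hr : PT ∅ r) : Apx fun y => Z (r y) := by
  obtain ⟨f, c, hf, h⟩ := h
  obtain ⟨c', h'⟩ := exists_pb_comp hr c
  refine ⟨fun z => f ((r z.1.1, z.1.2), z.2), c',
    hf.comp (((hr.comp PT.fst'.fst).pair PT.fst'.snd).pair PT.snd'), fun y e l m he hm => ?_⟩
  refine h (r y) e l m he (le_trans ?_ hm)
  rw [add_assoc, add_assoc]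
  exact h' y _

theorem Apx.mul {Z k : α → ℕ} (h : Apx Z) (hk : PT ∅ k) : Apx fun x => k x * Z x := by
  obtain ⟨f, c, hf, h⟩ := h
  refine ⟨fun z => k z.1.1 * f z, c, (hk.comp PT.fst'.fst).mul hf, fun x e l m he hm => ?_⟩
  refine (h x e l m he hm).trans (Ex_mono fun ρ _ => ind_mono fun h1 => ?_)
  push_cast
  rw [← mul_sub, abs_mul, Nat.abs_cast, mul_div_assoc]
  exact mul_le_mul_of_nonneg_left h1 (Nat.cast_nonneg _)

end Vale.Agent.N308S
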