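import Vale.Agent.N308S.Haf

/-!
Two gadgets: binary weights are replaced by chains, and prescribed degrees by copies of the
vertices (Tutte).
-/

namespace Vale.Agent.N308S

open Finset

/-- vertices of the gadgets -/
abbrev V3 : Type := ℕ × ℕ × ℕ

/-- symmetrisation -/
def sy {V : Type} (d : V → V → ℕ) (x y : V) : ℕ := d x y + d y x

theorem sy_comm {V : Type} (d : V → V → ℕ) (x y : V) : sy d x y = sy d y x := add_comm _ _

/-! ### Binary weights -/

/-- the weights of the chain gadget, when the levels below `k u` of the chain of `u` are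
eliminated -/
def bw (A : ℕ → ℕ → ℕ) (k : ℕ → ℕ) (x y : V3) : ℕ :=
  if x.2.2 = 0 ∧ y.2.2 = 0 then (if x.1 < y.1 then A x.1 y.1 % 2 ^ k x.1 else 0)
  else if x.2.2 = 0 ∧ y.2.2 = 1 then (if x.1 = y.1 then 2 ^ k x.1 else 0)
  else if x.2.2 = 2 ∧ y.2.2 = 1 then (if x.1 = y.1 ∧ x.2.1 ≤ y.2.1 then 1 else 0)
  else if x.2.2 = 2 ∧ y.2.2 = 0 then (if x.1 < y.1 then A x.1 y.1 / 2 ^ x.2.1 % 2 else 0)
  else 0

/-- the vertices of the chain gadget -/
def bS (N L : ℕ) (k : ℕ → ℕ) : Finset V3 :=
  (range N ×ˢ range (L + 1) ×ˢ range 3).filter fun x =>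
    if x.2.2 = 0 then x.2.1 = 0 else k x.1 ≤ x.2.1 ∧ x.2.1 < L

theorem mem_bS {N L : ℕ} {k : ℕ → ℕ} {x : V3} : x ∈ bS N L k ↔ x.1 < N ∧
    (x.2.2 = 0 ∧ x.2.1 = 0 ∨ (x.2.2 = 1 ∨ x.2.2 = 2) ∧ k x.1 ≤ x.2.1 ∧ x.2.1 < L) := by
  simp only [bS, mem_filter, mem_product, mem_range]
  split_ifs <;> omega

theorem bw_step (A : ℕ → ℕ → ℕ) {N L u : ℕ} {k : ℕ → ℕ} (hu : u < N) (hk : k u < L) :
    haf (sy (bw A k)) (bS N L k) =
      haf (sy (bw A (Function.update k u (k u + 1)))) (bS N L (Function.update k u (k u + 1))) := by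
  have e : bS N L k = insert (u, k u, 1) (insert (u, k u, 2)
      (bS N L (Function.update k u (k u + 1)))) := by
    ext ⟨a, b, c⟩
    simp only [mem_insert, mem_bS, Prod.mk.injEq, Function.update_apply]
    split_ifs with h
    · subst h; omega
    · omega
  rw [e]
  refine haf_elim (u := (u, 0, 0)) (sy_comm _) (sy_comm _) (by simp [mem_bS]) (by simp [mem_bS])
    (by simp) (by simp [mem_bS, hu]) (by simp [sy, bw]) ?_ ?_ ?_
  · rintro ⟨a, b, c⟩ hy hne
    simp only [mem_bS, Function.update_apply, ne_eq, Prod.mk.injEq] at hy hne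
    obtain ⟨-, ⟨rfl, rfl⟩ | ⟨rfl | rfl, h⟩⟩ := hy
    · simp [sy, bw, show a ≠ u by omega]
    · simp [sy, bw]
    · by_cases h' : a = u
      · subst h'
        simp only [if_true] at h
        simp [sy, bw, show ¬b ≤ k a by omega]
      · simp [sy, bw, h']
  · rintro ⟨a, b, c⟩ hy hne
    simp only [mem_bS, Function.update_apply, ne_eq, Prod.mk.injEq] at hy hne
    by_cases h : a = u
    · subst h
      simp only [if_true] at hy
      obtain ⟨-, h | ⟨rfl | rfl, h⟩⟩ := hy
      · omega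
      · simp [sy, bw, show k a ≤ b by omega, pow_succ]
        ring
      · simp [sy, bw]
    · obtain ⟨-, ⟨rfl, rfl⟩ | ⟨rfl | rfl, -⟩⟩ := hy
      · by_cases h' : u < a
        · simp [sy, bw, h', show ¬a < u by omega, Nat.mod_pow_succ]
        · simp [sy, bw, h', h]
      · simp [sy, bw, Ne.symm h]
      · simp [sy, bw]
  · rintro ⟨a, b, c⟩ hx ⟨a', b', c'⟩ hy hne hne'
    simp only [mem_bS, ne_eq, Prod.mk.injEq] at hx hy hne hne'
    have h1 : c = 0 → Function.update k u (k u + 1) a = k a := fun h =>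
      Function.update_of_ne (by omega) _ _
    have h2 : c' = 0 → Function.update k u (k u + 1) a' = k a' := fun h =>
      Function.update_of_ne (by omega) _ _
    simp only [sy, bw]
    congr 1
    · by_cases h : c = 0
      · rw [h1 h]
      · simp [h]
    · by_cases h : c' = 0
      · rw [h2 h]
      · simp [h]

/-- the original vertices -/
def e0 : ℕ ↪ V3 := ⟨fun u => (u, 0, 0), fun _ _ h => congrArg Prod.fst h⟩

theorem e0_apply (u : ℕ) : e0 u = (u, 0, 0) := rfl

theorem haf_bw {A : ℕ → ℕ → ℕ} (hA : ∀ a b, A a b = A b a) {N L : ℕ}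
    (hL : ∀ a < N, ∀ b < N, A a b < 2 ^ L) (k : ℕ → ℕ) :
    haf (sy (bw A k)) (bS N L k) = haf A (range N) := by
  induction hn : ∑ u ∈ range N, (L - k u) using Nat.strong_induction_on generalizing k with
  | _ n ih =>
    by_cases h : ∃ u < N, k u < L
    · obtain ⟨u, hu, hk⟩ := h
      rw [bw_step A hu hk]
      refine ih _ ?_ _ rfl
      rw [← hn]
      refine sum_lt_sum (fun v _ => ?_) ⟨u, mem_range.2 hu, ?_⟩
      · rw [Function.update_apply]
        split_ifs with h
        · subst h; omega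
        · rfl
      · rw [Function.update_self]
        omega
    push Not at h
    have e : bS N L k = (range N).map e0 := by
      ext ⟨a, b, c⟩
      simp only [mem_bS, mem_map, mem_range, e0_apply, Prod.mk.injEq]
      constructor
      · rintro ⟨h1, h2⟩
        have := h a h1
        exact ⟨a, h1, rfl, by omega, by omega⟩
      · rintro ⟨_, h1, rfl, rfl, rfl⟩
        exact ⟨h1, Or.inl ⟨rfl, rfl⟩⟩
    rw [e, ← haf_map (sy_comm _)]
    refine haf_congr fun a ha b hb hab => ?_
    have h1 : ∀ a < N, ∀ b < N, A a b % 2 ^ k a = A a b := fun a ha b hb =>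
      Nat.mod_eq_of_lt ((hL a ha b hb).trans_le (Nat.pow_le_pow_right two_pos (h a ha)))
    rw [mem_range] at ha hb
    rcases lt_or_gt_of_ne hab with h2 | h2
    · simp [sy, bw, e0_apply, h2, h2.not_gt, h1 a ha b hb]
    · simp [sy, bw, e0_apply, h2, h2.not_gt, h1 b hb a ha, hA a b]

theorem sy_bw_le (A : ℕ → ℕ → ℕ) (x y : V3) : sy (bw A fun _ => 0) x y ≤ 1 := by
  simp only [sy, bw, pow_zero, Nat.mod_one]
  split_ifs <;> omega

/-! ### Prescribed degrees -/

/-- the degree of `v` in a set of pairs -/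
def dg (T : Finset (ℕ × ℕ)) (v : ℕ) : ℕ :=
  (T.filter fun e => e.1 = v).card + (T.filter fun e => e.2 = v).card

open Classical in
/-- the weighted number of the subsets of `E` with degrees `f`; a pair has the weight `a` if it is
chosen and the weight `b` if not -/
noncomputable def fac (a b : ℕ → ℕ → ℕ) (E : Finset (ℕ × ℕ)) (f : ℕ → ℕ) : ℕ :=
  ∑ T ∈ E.powerset, if ∀ v, dg T v = f v then
    (∏ e ∈ T, a e.1 e.2) * ∏ e ∈ E \ T, b e.1 e.2 else 0

/-- the degrees which remain if the pair `u`, `v` is chosen -/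
def dec (f : ℕ → ℕ) (u v w : ℕ) : ℕ := f w - if w = u ∨ w = v then 1 else 0

theorem dg_insert {T : Finset (ℕ × ℕ)} {u v : ℕ} (h : (u, v) ∉ T) (huv : u ≠ v) (w : ℕ) :
    dg (insert (u, v) T) w = dg T w + if w = u ∨ w = v then 1 else 0 := by
  have h1 : ∀ p : ℕ × ℕ → Prop, ∀ [DecidablePred p], (u, v) ∉ T.filter p :=
    fun p _ h' => h (mem_filter.1 h').1
  simp only [dg, filter_insert]
  split_ifs <;> (try simp only [card_insert_of_notMem (h1 _)]) <;> omega

theorem fac_insert (a b : ℕ → ℕ → ℕ) {E : Finset (ℕ × ℕ)} {u v : ℕ} (h : (u, v) ∉ E) (huv : u ≠ v)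
    (f : ℕ → ℕ) : fac a b (insert (u, v) E) f =
      b u v * fac a b E f + if 0 < f u ∧ 0 < f v then a u v * fac a b E (dec f u v) else 0 := by
  classical
  unfold fac
  rw [sum_powerset_insert h, mul_sum]
  congr 1
  · refine sum_congr rfl fun T hT => ?_
    have h1 : (u, v) ∉ T := fun h' => h (mem_powerset.1 hT h')
    rw [insert_sdiff_of_notMem _ h1, prod_insert fun h' => h (mem_sdiff.1 h').1]
    split_ifs
    · ring
    · rfl
  have e : ∀ T ∈ E.powerset, (∀ w, dg (insert (u, v) T) w = f w) ↔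
      (0 < f u ∧ 0 < f v) ∧ ∀ w, dg T w = dec f u v w := by
    intro T hT
    have h1 : (u, v) ∉ T := fun h' => h (mem_powerset.1 hT h')
    simp only [dg_insert h1 huv, dec]
    refine ⟨fun h2 => ⟨⟨?_, ?_⟩, fun w => ?_⟩, fun h2 w => ?_⟩
    · have := h2 u
      simp only [true_or, if_true] at this
      omega
    · have := h2 v
      simp only [or_true, if_true] at this
      omega
    · have := h2 w
      omega
    · have := h2.2 w
      split_ifs at this ⊢ with h3
      · rcases h3 with rfl | rfl <;> omega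
      · omega
  split_ifs with h2
  · rw [mul_sum]
    refine sum_congr rfl fun T hT => ?_
    have h1 : (u, v) ∉ T := fun h' => h (mem_powerset.1 hT h')
    rw [insert_sdiff_insert, sdiff_insert_of_notMem h, prod_insert h1]
    simp only [e T hT, h2, true_and]
    split_ifs
    · ring
    · rfl
  · exact sum_eq_zero fun T hT => if_neg fun h3 => h2 ((e T hT).1 h3).1

theorem prod_dec {n u v : ℕ} (hu : u < n) (hv : v < n) (huv : u ≠ v) {f : ℕ → ℕ} (h1 : 0 < f u)
    (h2 : 0 < f v) : ∏ w ∈ range n, (f w).factorial =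
      f u * f v * ∏ w ∈ range n, (dec f u v w).factorial := by
  have e : f u * f v = ∏ w ∈ range n, if w = u ∨ w = v then f w else 1 := by
    rw [← prod_filter, show (range n).filter (fun w => w = u ∨ w = v) = {u, v} by
      ext w; simp only [mem_filter, mem_range, mem_insert, mem_singleton]; omega, prod_pair huv]
  rw [e, ← prod_mul_distrib]
  refine prod_congr rfl fun w _ => ?_
  unfold dec
  split_ifs with h
  · exact (Nat.mul_factorial_pred (by rcases h with rfl | rfl <;> omega)).symm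
  · simp

/-- the weights of the gadget of Tutte: `(u, v, 0)` is the half at `u` of the pair `u`, `v`, and
`(u, i, 1)` is a copy of `u` -/
def tw (a b : ℕ → ℕ → ℕ) (x y : V3) : ℕ :=
  if x.2.2 = 0 ∧ y.2.2 = 0 then
    (if x.1 < x.2.1 ∧ y.1 = x.2.1 ∧ y.2.1 = x.1 then b x.1 x.2.1 else 0)
  else if x.2.2 = 0 ∧ y.2.2 = 1 then
    (if x.1 = y.1 then (if x.1 < x.2.1 then a x.1 x.2.1 else 1) else 0)
  else 0

theorem tw_zero (a b : ℕ → ℕ → ℕ) {u v y1 y2 y3 : ℕ} (h : y3 ≤ 1)
    (h0 : ¬(y1 = v ∧ y2 = u ∧ y3 = 0)) (h1 : ¬(y1 = u ∧ y3 = 1)) :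
    sy (tw a b) (u, v, 0) (y1, y2, y3) = 0 := by
  obtain rfl | rfl : y3 = 0 ∨ y3 = 1 := by omega
  · simp only [sy, tw, and_self, if_true]
    rw [if_neg (by omega), if_neg (by omega)]
  · simp [sy, tw, show u ≠ y1 by omega]

/-- the copies of `v` -/
def cp (S : Finset V3) (v : ℕ) : Finset V3 := S.filter fun x => x.1 = v ∧ x.2.2 = 1

theorem haf_tw (a b : ℕ → ℕ → ℕ) (n : ℕ) (E : Finset (ℕ × ℕ)) (hE : ∀ e ∈ E, e.1 < e.2)
    (S : Finset V3) (h1 : ∀ x ∈ S, x.1 < n ∧ x.2.2 ≤ 1)
    (h2 : ∀ u v, (u, v, 0) ∈ S ↔ (u, v) ∈ E ∨ (v, u) ∈ E) :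
    haf (sy (tw a b)) S = (∏ w ∈ range n, (cp S w).card.factorial) *
      fac a b E fun w => (cp S w).card := by
  induction E using Finset.induction_on generalizing S with
  | empty =>
    rcases S.eq_empty_or_nonempty with rfl | ⟨x, hx⟩
    · simp [haf_empty, cp, fac, dg]
    have h3 : ∀ y ∈ S, y.2.2 = 1 := by
      rintro ⟨u, v, c⟩ hy
      have := (h1 _ hy).2
      have h4 : c ≠ 0 := by
        rintro rfl
        simpa using (h2 u v).1 hy
      dsimp only at this ⊢
      omega
    rw [haf_exp (sy_comm _) hx, sum_eq_zero fun y hy => by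
      simp [sy, tw, h3 x hx, h3 y (mem_of_mem_erase hy)]]
    have h4 : 0 < (cp S x.1).card := card_pos.2 ⟨x, mem_filter.2 ⟨hx, rfl, h3 x hx⟩⟩
    rw [fac, powerset_empty, sum_singleton, if_neg, mul_zero]
    intro h
    have := h x.1
    simp only [dg, filter_empty, card_empty] at this
    omega
  | insert e E he ih =>
    obtain ⟨u, v⟩ := e
    have huv : u < v := hE _ (mem_insert_self _ _)
    have hE' : ∀ e ∈ E, e.1 < e.2 := fun e h => hE e (mem_insert_of_mem h)
    have hvu : (v, u) ∉ E := fun h => by have := hE' _ h; dsimp only at this; omega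
    have hp : (u, v, 0) ∈ S := (h2 u v).2 (Or.inl (mem_insert_self _ _))
    have hq : (v, u, 0) ∈ S := (h2 v u).2 (Or.inr (mem_insert_self _ _))
    have hu : u < n := (h1 _ hp).1
    have hv : v < n := (h1 _ hq).1
    have hq' : (v, u, 0) ∈ S.erase (u, v, 0) := mem_erase.2 ⟨by simp; omega, hq⟩
    -- the halves which remain
    have key : ∀ S' : Finset V3, S' ⊆ S → (∀ x y, (x, y, 0) ∈ S' ↔
        (x, y, 0) ∈ (S.erase (u, v, 0)).erase (v, u, 0)) → haf (sy (tw a b)) S' =
          (∏ w ∈ range n, (cp S' w).card.factorial) * fac a b E fun w => (cp S' w).card := by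
      intro S' h3 h4
      refine ih hE' S' (fun x hx => h1 x (h3 hx)) fun x y => ?_
      rw [h4]
      simp only [mem_erase, h2, mem_insert, ne_eq, Prod.mk.injEq, and_true]
      constructor
      · tauto
      · intro h
        refine ⟨?_, ?_, by tauto⟩
        · rintro ⟨rfl, rfl⟩
          tauto
        · rintro ⟨rfl, rfl⟩
          tauto
    have c0 : ∀ w, cp ((S.erase (u, v, 0)).erase (v, u, 0)) w = cp S w := by
      intro w
      ext ⟨x, y, z⟩
      simp only [cp, mem_filter, mem_erase, ne_eq, Prod.mk.injEq]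
      constructor
      · tauto
      · rintro ⟨h3, h4, h5⟩
        exact ⟨⟨by omega, by omega, h3⟩, h4, h5⟩
    rw [haf_exp (sy_comm _) hp, ← add_sum_erase _ _ hq', fac_insert a b he huv.ne, mul_add,
      key _ ((erase_subset _ _).trans (erase_subset _ _)) fun _ _ => Iff.rfl]
    simp only [c0]
    congr 1
    · rw [show sy (tw a b) (u, v, 0) (v, u, 0) = b u v by simp [sy, tw, huv, huv.not_gt]]
      ring
    -- the half at `u` is matched with a copy of `u`
    have s1 : ∀ p ∈ cp S u, haf (sy (tw a b)) ((S.erase (u, v, 0)).erase p) = (cp S v).card *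
        ((∏ w ∈ range n, (dec (fun w => (cp S w).card) u v w).factorial) *
          fac a b E (dec (fun w => (cp S w).card) u v)) := by
      rintro ⟨p1, p2, p3⟩ hp'
      obtain ⟨hp1, rfl, rfl⟩ : (p1, p2, p3) ∈ S ∧ p1 = u ∧ p3 = 1 := mem_filter.1 hp'
      rw [haf_exp (sy_comm _) (x := (v, p1, 0)) (mem_erase.2 ⟨by simp, hq'⟩), ← smul_eq_mul,
        ← sum_const]
      symm
      refine sum_subset_zero_on_sdiff (fun y hy => ?_) (fun y hy => ?_) fun y hy => ?_
      · obtain ⟨y1, y2, y3⟩ := y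
        obtain ⟨hy1, rfl, rfl⟩ : (y1, y2, y3) ∈ S ∧ y1 = v ∧ y3 = 1 := mem_filter.1 hy
        simp only [mem_erase, ne_eq, Prod.mk.injEq]
        exact ⟨by omega, by omega, by omega, hy1⟩
      · obtain ⟨y1, y2, y3⟩ := y
        simp only [mem_sdiff, mem_erase, cp, mem_filter, ne_eq, Prod.mk.injEq] at hy
        rw [tw_zero a b (h1 _ hy.1.2.2.2).2 hy.1.2.2.1 fun h => hy.2 ⟨hy.1.2.2.2, h⟩, zero_mul]
      · obtain ⟨y1, y2, y3⟩ := y
        obtain ⟨hy1, rfl, rfl⟩ : (y1, y2, y3) ∈ S ∧ y1 = v ∧ y3 = 1 := mem_filter.1 hy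
        have c1 : ∀ w, (cp ((((S.erase (p1, y1, 0)).erase (p1, p2, 1)).erase (y1, p1, 0)).erase
            (y1, y2, 1)) w).card = dec (fun w => (cp S w).card) p1 y1 w := by
          intro w
          have : cp ((((S.erase (p1, y1, 0)).erase (p1, p2, 1)).erase (y1, p1, 0)).erase
              (y1, y2, 1)) w = ((cp S w).erase (p1, p2, 1)).erase (y1, y2, 1) := by
            ext ⟨x, y, z⟩
            simp only [cp, mem_filter, mem_erase, ne_eq, Prod.mk.injEq]
            constructor
            · tauto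
            · rintro ⟨h3, h4, h5, h6, h7⟩
              exact ⟨⟨h3, by omega, h4, by omega, h5⟩, h6, h7⟩
          rw [this, dec, card_erase_eq_ite, card_erase_eq_ite]
          simp only [cp, mem_filter, mem_erase, ne_eq, Prod.mk.injEq, hp1, hy1, true_and, and_true]
          split_ifs <;> omega
        rw [show sy (tw a b) (y1, p1, 0) (y1, y2, 1) = 1 by simp [sy, tw, huv.not_gt], one_mul,
          key _ ((erase_subset _ _).trans ((erase_subset _ _).trans ((erase_subset _ _).trans
            (erase_subset _ _)))) fun x y => by simp]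
        simp only [c1]
    have s2 : ∑ y ∈ (S.erase (u, v, 0)).erase (v, u, 0),
        sy (tw a b) (u, v, 0) y * haf (sy (tw a b)) ((S.erase (u, v, 0)).erase y) =
          ∑ y ∈ cp S u, a u v * haf (sy (tw a b)) ((S.erase (u, v, 0)).erase y) := by
      symm
      refine sum_subset_zero_on_sdiff (fun y hy => ?_) (fun y hy => ?_) fun y hy => ?_
      · exact (mem_filter.1 (c0 u ▸ hy)).1
      · obtain ⟨y1, y2, y3⟩ := y
        simp only [mem_sdiff, mem_erase, cp, mem_filter, ne_eq, Prod.mk.injEq] at hy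
        rw [tw_zero a b (h1 _ hy.1.2.2).2 hy.1.1 fun h => hy.2 ⟨hy.1.2.2, h⟩, zero_mul]
      · obtain ⟨y1, y2, y3⟩ := y
        obtain ⟨hy1, rfl, rfl⟩ : (y1, y2, y3) ∈ S ∧ y1 = u ∧ y3 = 1 := mem_filter.1 hy
        rw [show sy (tw a b) (y1, v, 0) (y1, y2, 1) = a y1 v by simp [sy, tw, huv]]
    rw [s2, sum_congr rfl fun y hy => by rw [s1 y hy], sum_const, smul_eq_mul]
    split_ifs with h
    · rw [prod_dec hu hv huv.ne (f := fun w => (cp S w).card) h.1 h.2]
      ring
    · rcases not_and_or.1 h with h | h <;> simp [Nat.eq_zero_of_not_pos h]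

end Vale.Agent.N308S
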