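import Vale.Agent.P308.Main
import Vale.Agent.N308S.Apx
import Vale.Agent.N308S.Gad

/-!
Approximation of hafnians and of weighted numbers of subgraphs with prescribed degrees, by
reduction to the number of perfect matchings.
-/

namespace Vale.Agent.N308S

open Finset Vale.Agent.Lib.PTM Vale.Agent.Lib.PolyTime Vale.Agent.P308 Vale.Agent.P308.Poly

theorem alg_law : ∃ C, ∀ (n : ℕ) (adj : Fin n → Fin n → Bool) (adjL : List Bool) (e l m : ℕ),
    (∀ x y, adj x y = adj y x) → (∀ x y : Fin n, adjL.getD (x * n + y) false = adj x y) → 0 < e →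
      (n + e + l + 2) ^ C ≤ m → 1 - (1 / 2 : ℝ) ^ l ≤ Ex m fun ρ =>
        ind (|(alg ((⟨n⟩, adjL, ⟨e⟩, ⟨l⟩), ρ) : ℝ) - nPM adj| ≤ nPM adj / e) := by
  obtain ⟨C, -, h⟩ := par_coins
  refine ⟨C, fun n adj adjL e l m hs hL he hm => ?_⟩
  have h0 : (0 : ℝ) ≤ (1 / 2) ^ l := by positivity
  unfold alg
  dsimp only
  by_cases h1 : n % 2 = 1
  · have : IsEmpty (PM (Fin n)) := isEmpty_PM_of_odd (by rw [Fintype.card_fin, Nat.odd_iff, h1])
    have h2 : nPM adj = 0 := by rw [nPM, univ_eq_empty, filter_empty, card_empty]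
    simp only [if_pos h1, h2, Ex_const]
    rw [ind_of (by simp)]
    linarith
  obtain ⟨k, rfl⟩ : ∃ k, n = 2 * k := ⟨n / 2, by omega⟩
  by_cases h2 : k = 0
  · subst h2
    have h3 : nPM adj = 1 := by
      rw [nPM, filter_true_of_mem fun _ _ x => x.elim0, card_univ, card_PM]
      rfl
    simp only [if_neg h1, h3, if_true, Ex_const]
    rw [ind_of (by simp)]
    linarith
  simp only [if_neg h1, if_neg (show ¬ 2 * k = 0 by omega), Nat.mul_div_cancel_left k two_pos]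
  exact loop_law (P := par k e l) (par_cond l (by omega) he) hs hL ((h k e l).trans hm)

/-- a square table, row by row -/
def flat {γ : Type} (n : ℕ) (g : ℕ → ℕ → γ) : List γ :=
  (List.range n).flatMap fun i => (List.range n).map (g i)

theorem getD_flat {γ : Type} {n i j : ℕ} (g : ℕ → ℕ → γ) (hi : i < n) (hj : j < n) (d : γ) :
    (flat n g).getD (i * n + j) d = g i j := by
  unfold flat
  rw [List.getD_eq_getElem?_getD, getElem?_flatMap_const (n := n) (by simp) _ _ hj]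
  simp [hi, hj]

theorem mem_flat {γ : Type} {n i j : ℕ} (g : ℕ → ℕ → γ) (hi : i < n) (hj : j < n) :
    g i j ∈ flat n g := by
  simp only [flat, List.mem_flatMap, List.mem_map, List.mem_range]
  exact ⟨i, hi, j, hj, rfl⟩

variable {β γ : Type} [Enc β] [Enc γ]

theorem pt_flat {N : β → ℕ} (hN : PU N) {g : β → ℕ → ℕ → γ}
    (hg : PT ∅ fun z : β × ℕ × ℕ => g z.1 z.2.1 z.2.2) : PT ∅ fun x => flat (N x) (g x) :=
  PT.flatMap (f := fun x i => (List.range (N x)).map (g x i)) (PT.range hN.pt hN.bd)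
    (PT.map (f := fun (p : β × ℕ) j => g p.1 p.2 j)
      (PT.range (hN.comp PT.fst').pt (hN.comp PT.fst').bd)
      (hg.comp (PT.fst'.fst.pair (PT.fst'.snd.pair PT.snd'))))

theorem haf_fin {w : ℕ → ℕ → ℕ} (hw : ∀ a b, w a b = w b a) (n : ℕ) :
    haf w (range n) = haf (fun a b : Fin n => w a b) univ := by
  rw [← Nat.Iio_eq_range, ← Fin.map_valEmbedding_univ, ← haf_map hw]
  rfl

theorem apx_base {N : β → ℕ} (hN : PU N) {g : β → ℕ → ℕ → Bool}
    (hg : PT ∅ fun z : β × ℕ × ℕ => g z.1 z.2.1 z.2.2) (hs : ∀ x a b, g x a b = g x b a) :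
    Apx fun x => haf (fun a b => (g x a b).toNat) (range (N x)) := by
  obtain ⟨C, h⟩ := alg_law
  have h1 : PT ∅ fun x => Un.mk (N x) := PT.mkUn hN.pt hN.bd
  obtain ⟨c, hc⟩ := exists_pb_comp h1 C
  refine ⟨fun z => alg ((⟨N z.1.1⟩, flat (N z.1.1) (g z.1.1), z.1.2), z.2), c,
    pt_alg.comp (((h1.comp PT.fst'.fst).pair (((pt_flat hN hg).comp PT.fst'.fst).pair
      PT.fst'.snd)).pair PT.snd'), fun x e l m he hm => ?_⟩
  dsimp only
  rw [haf_fin (fun a b => by rw [hs]), haf_eq_cnt (adj := fun a b : Fin (N x) => g x a b)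
    fun a b => hs x a b, ← nPM_eq_cnt]
  refine h _ _ _ e l m (fun a b => hs x a b) (fun a b => getD_flat _ a.2 b.2 _) he (le_trans ?_ hm)
  have := hc x (e + l)
  rw [esize_un, ← add_assoc, ← add_assoc] at this
  exact this

theorem haf_list {V : Type} [DecidableEq V] {w : V → V → ℕ} (hw : ∀ a b, w a b = w b a)
    {L : List V} (hL : L.Nodup) (d : V) :
    haf (fun i j => w (L.getD i d) (L.getD j d)) (range L.length) = haf w L.toFinset := by
  have e : L.toFinset = univ.map ⟨L.get, List.nodup_iff_injective_get.1 hL⟩ := by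
    ext x
    simp only [List.mem_toFinset, mem_map, mem_univ, true_and]
    exact List.mem_iff_get
  rw [haf_fin fun a b => hw _ _, e, ← haf_map hw]
  refine haf_congr fun a _ b _ _ => ?_
  rw [List.getD_eq_getElem _ _ a.2, List.getD_eq_getElem _ _ b.2]
  rfl

/-- the triples in a box with the property `P` -/
def box (a b c : ℕ) (P : V3 → Prop) [DecidablePred P] : List V3 :=
  (List.range a ×ˢ List.range b ×ˢ List.range c).filter fun x => decide (P x)

theorem nodup_box (a b c : ℕ) (P : V3 → Prop) [DecidablePred P] : (box a b c P).Nodup :=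
  (List.nodup_range.product (List.nodup_range.product List.nodup_range)).filter _

theorem toFinset_box (a b c : ℕ) (P : V3 → Prop) [DecidablePred P] :
    (box a b c P).toFinset = (range a ×ˢ range b ×ˢ range c).filter P := by
  ext ⟨x, y, z⟩
  simp [box]

theorem pt_prod {δ : Type} [Enc δ] {l : β → List γ} {l' : β → List δ} (hl : PT ∅ l) (hl' : PT ∅ l') :
    PT ∅ fun x => l x ×ˢ l' x :=
  PT.flatMap (f := fun x i => (l' x).map (Prod.mk i)) hl
    (PT.map (f := fun (p : β × γ) j => (p.2, j)) (hl'.comp PT.fst') (PT.fst'.snd.pair PT.snd'))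

theorem pt_box {a b : β → ℕ} (ha : PU a) (hb : PU b) (c : ℕ) {P : β → V3 → Prop}
    [∀ x, DecidablePred (P x)] (hP : PT ∅ fun z : β × V3 => decide (P z.1 z.2)) :
    PT ∅ fun x => box (a x) (b x) c (P x) :=
  PT.filter (f := fun x y => decide (P x y)) (pt_prod (PT.range ha.pt ha.bd)
    (pt_prod (PT.range hb.pt hb.bd) (PT.const _))) hP

theorem pt_at {L : β → List V3} (hL : PT ∅ L) {w : β → V3 → V3 → γ}
    (hw : PT ∅ fun z : β × V3 × V3 => w z.1 z.2.1 z.2.2) : PT ∅ fun z : β × ℕ × ℕ =>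
      w z.1 ((L z.1).getD z.2.1 (0, 0, 0)) ((L z.1).getD z.2.2 (0, 0, 0)) :=
  hw.comp (PT.fst'.pair ((PT.getD (hL.comp PT.fst') PT.snd'.fst (PT.const _)).pair
    (PT.getD (hL.comp PT.fst') PT.snd'.snd (PT.const _))))

theorem apx_list01 {L : β → List V3} (hL : PT ∅ L) (nd : ∀ x, (L x).Nodup) {w : β → V3 → V3 → ℕ}
    (hw : PT ∅ fun z : β × V3 × V3 => w z.1 z.2.1 z.2.2) (hs : ∀ x a b, w x a b = w x b a)
    (h1 : ∀ x a b, w x a b ≤ 1) : Apx fun x => haf (w x) (L x).toFinset := by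
  refine (apx_base (N := fun x => (L x).length) ⟨hL.length, PBd.length hL⟩
    (g := fun x i j => decide (w x ((L x).getD i (0, 0, 0)) ((L x).getD j (0, 0, 0)) = 1))
    (PT.eqNat (pt_at hL hw) (PT.const 1)) fun x a b => by rw [hs]).congr fun x => ?_
  rw [← haf_list (hs x) (nd x) (0, 0, 0)]
  refine haf_congr fun a _ b _ _ => ?_
  rcases Nat.le_one_iff_eq_zero_or_eq_one.1
    (h1 x ((L x).getD a (0, 0, 0)) ((L x).getD b (0, 0, 0))) with h | h <;> rw [h] <;> rfl

theorem pt_sy {d : β → V3 → V3 → ℕ} (hd : PT ∅ fun z : β × V3 × V3 => d z.1 z.2.1 z.2.2) :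
    PT ∅ fun z : β × V3 × V3 => sy (d z.1) z.2.1 z.2.2 :=
  hd.add (hd.comp (PT.fst'.pair (PT.snd'.snd.pair PT.snd'.fst)))

theorem pt_and {p q : β → Prop} [DecidablePred p] [DecidablePred q]
    (hp : PT ∅ fun a => decide (p a)) (hq : PT ∅ fun a => decide (q a)) :
    PT ∅ fun a => decide (p a ∧ q a) := PT.decide_and hp hq

theorem pt_bw {A : β → ℕ → ℕ → ℕ} (hA : PT ∅ fun z : β × ℕ × ℕ => A z.1 z.2.1 z.2.2) :
    PT ∅ fun z : β × V3 × V3 => bw (A z.1) (fun _ => 0) z.2.1 z.2.2 := by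
  have x1 : PT ∅ fun z : β × V3 × V3 => z.2.1.1 := PT.snd'.fst.fst
  have x2 : PT ∅ fun z : β × V3 × V3 => z.2.1.2.1 := PT.snd'.fst.snd.fst
  have x3 : PT ∅ fun z : β × V3 × V3 => z.2.1.2.2 := PT.snd'.fst.snd.snd
  have y1 : PT ∅ fun z : β × V3 × V3 => z.2.2.1 := PT.snd'.snd.fst
  have y2 : PT ∅ fun z : β × V3 × V3 => z.2.2.2.1 := PT.snd'.snd.snd.fst
  have y3 : PT ∅ fun z : β × V3 × V3 => z.2.2.2.2 := PT.snd'.snd.snd.snd
  have hA' : PT ∅ fun z : β × V3 × V3 => A z.1 z.2.1.1 z.2.2.1 :=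
    hA.comp (PT.fst'.pair (x1.pair y1))
  exact PT.ite (pt_and (x3.eqNat (PT.const 0)) (y3.eqNat (PT.const 0)))
    (PT.ite (x1.lt y1) (hA'.mod (PT.const (2 ^ 0))) (PT.const 0))
    (PT.ite (pt_and (x3.eqNat (PT.const 0)) (y3.eqNat (PT.const 1)))
      (PT.ite (x1.eqNat y1) (PT.const (2 ^ 0)) (PT.const 0))
      (PT.ite (pt_and (x3.eqNat (PT.const 2)) (y3.eqNat (PT.const 1)))
        (PT.ite (pt_and (x1.eqNat y1) (x2.le y2)) (PT.const 1) (PT.const 0))
        (PT.ite (pt_and (x3.eqNat (PT.const 2)) (y3.eqNat (PT.const 0)))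
          (PT.ite (x1.lt y1) (hA'.bitNat x2) (PT.const 0)) (PT.const 0))))

/-- **Hafnians** of symmetric tables of natural numbers in binary. -/
theorem apx_range {N : β → ℕ} (hN : PU N) {w : β → ℕ → ℕ → ℕ}
    (hw : PT ∅ fun z : β × ℕ × ℕ => w z.1 z.2.1 z.2.2) (hs : ∀ x a b, w x a b = w x b a) :
    Apx fun x => haf (w x) (range (N x)) := by
  have h0 := (pt_flat hN hw).sum
  have hL : PU fun x => Nat.size (flat (N x) (w x)).sum :=
    ⟨h0.natSize, h0.pbd.mono fun x => (esize_nat _).ge⟩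
  have h1 : PT ∅ fun z : β × V3 => decide (if z.2.2.2 = 0 then z.2.2.1 = 0 else
      0 ≤ z.2.2.1 ∧ z.2.2.1 < Nat.size (flat (N z.1) (w z.1)).sum) :=
    (PT.ite (PT.snd'.snd.snd.eqNat (PT.const 0)) (PT.snd'.snd.fst.eqNat (PT.const 0))
      (PT.snd'.snd.fst.lt (hL.pt.comp PT.fst'))).congr fun z => by split_ifs <;> simp
  refine (apx_list01 (pt_box hN (hL.add (PU.const 1)) 3 (P := fun x y => if y.2.2 = 0 then y.2.1 = 0
    else 0 ≤ y.2.1 ∧ y.2.1 < Nat.size (flat (N x) (w x)).sum) h1) (fun x => nodup_box _ _ _ _)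
    (w := fun x => sy (bw (w x) fun _ => 0))
    (pt_sy (d := fun x => bw (w x) fun _ => 0) (pt_bw hw)) (fun x => sy_comm _) fun x => sy_bw_le _).congr fun x => ?_
  rw [toFinset_box]
  exact haf_bw (hs x) (fun a ha b hb => lt_of_le_of_lt
    (List.single_le_sum (fun _ _ => Nat.zero_le _) _ (mem_flat _ ha hb)) (Nat.lt_size_self _)) _

theorem apx_list {L : β → List V3} (hL : PT ∅ L) (nd : ∀ x, (L x).Nodup) {w : β → V3 → V3 → ℕ}
    (hw : PT ∅ fun z : β × V3 × V3 => w z.1 z.2.1 z.2.2) (hs : ∀ x a b, w x a b = w x b a) :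
    Apx fun x => haf (w x) (L x).toFinset :=
  (apx_range (N := fun x => (L x).length) ⟨hL.length, PBd.length hL⟩
    (w := fun x i j => w x ((L x).getD i (0, 0, 0)) ((L x).getD j (0, 0, 0)))
    (pt_at hL hw) fun x _ _ => hs x _ _).congr fun x => haf_list (hs x) (nd x) _

theorem pt_tw {a b : β → ℕ → ℕ → ℕ} (ha : PT ∅ fun z : β × ℕ × ℕ => a z.1 z.2.1 z.2.2)
    (hb : PT ∅ fun z : β × ℕ × ℕ => b z.1 z.2.1 z.2.2) :
    PT ∅ fun z : β × V3 × V3 => tw (a z.1) (b z.1) z.2.1 z.2.2 := by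
  have x1 : PT ∅ fun z : β × V3 × V3 => z.2.1.1 := PT.snd'.fst.fst
  have x2 : PT ∅ fun z : β × V3 × V3 => z.2.1.2.1 := PT.snd'.fst.snd.fst
  have x3 : PT ∅ fun z : β × V3 × V3 => z.2.1.2.2 := PT.snd'.fst.snd.snd
  have y1 : PT ∅ fun z : β × V3 × V3 => z.2.2.1 := PT.snd'.snd.fst
  have y2 : PT ∅ fun z : β × V3 × V3 => z.2.2.2.1 := PT.snd'.snd.snd.fst
  have y3 : PT ∅ fun z : β × V3 × V3 => z.2.2.2.2 := PT.snd'.snd.snd.snd
  have ha' : PT ∅ fun z : β × V3 × V3 => a z.1 z.2.1.1 z.2.1.2.1 :=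
    ha.comp (PT.fst'.pair (x1.pair x2))
  have hb' : PT ∅ fun z : β × V3 × V3 => b z.1 z.2.1.1 z.2.1.2.1 :=
    hb.comp (PT.fst'.pair (x1.pair x2))
  exact PT.ite (pt_and (x3.eqNat (PT.const 0)) (y3.eqNat (PT.const 0)))
    (PT.ite (pt_and (x1.lt x2) (pt_and (y1.eqNat x2) (y2.eqNat x1))) hb' (PT.const 0))
    (PT.ite (pt_and (x3.eqNat (PT.const 0)) (y3.eqNat (PT.const 1)))
      (PT.ite (x1.eqNat y1) (PT.ite (x1.lt x2) ha' (PT.const 1)) (PT.const 0)) (PT.const 0))

/-- the pairs `u < v < n` -/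
def prs (n : ℕ) : Finset (ℕ × ℕ) := (range n ×ˢ range n).filter fun e => e.1 < e.2

/-- the degrees, cut at `n` -/
def fc (n : ℕ) (f : ℕ → ℕ) (v : ℕ) : ℕ := if v < n then min (f v) n else 0

/-- the number of ways to label the half edges -/
def fF (n : ℕ) (f : ℕ → ℕ) : ℕ := ∏ v ∈ range n, (fc n f v).factorial

theorem fF_pos (n : ℕ) (f : ℕ → ℕ) : 0 < fF n f := prod_pos fun _ _ => Nat.factorial_pos _

theorem pt_fF {N : β → ℕ} (hN : PU N) {f : β → ℕ → ℕ} (hf : PT ∅ fun z : β × ℕ => f z.1 z.2) :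
    PT ∅ fun x => fF (N x) (f x) := by
  have h1 := PU.min hf (hN.comp PT.fst')
  refine (PT.map (f := fun x v => (min (f x v) (N x)).factorial) (PT.range hN.pt hN.bd)
    (PT.factorial h1.pt h1.bd)).prod.congr fun x => ?_
  rw [fF, prod_congr rfl fun v hv => by rw [fc, if_pos (mem_range.1 hv)]]
  exact (prod_list_map_count _ _).trans (by
    rw [List.toFinset_range]
    exact prod_congr rfl fun v hv => by
      rw [List.count_eq_one_of_mem List.nodup_range (List.mem_range.2 (mem_range.1 hv)), pow_one])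

/-- **Subgraphs with prescribed degrees**, with two weights for every pair. -/
theorem apx_fac {N : β → ℕ} (hN : PU N) {a b : β → ℕ → ℕ → ℕ}
    (ha : PT ∅ fun z : β × ℕ × ℕ => a z.1 z.2.1 z.2.2)
    (hb : PT ∅ fun z : β × ℕ × ℕ => b z.1 z.2.1 z.2.2) {f : β → ℕ → ℕ}
    (hf : PT ∅ fun z : β × ℕ => f z.1 z.2) :
    Apx fun x => fF (N x) (f x) * fac (a x) (b x) (prs (N x)) (fc (N x) (f x)) := by
  have h1 : PT ∅ fun z : β × V3 => decide (if z.2.2.2 = 0 then z.2.1 ≠ z.2.2.1 else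
      z.2.2.1 < f z.1 z.2.1) :=
    (PT.ite (PT.snd'.snd.snd.eqNat (PT.const 0)) (pt_ne PT.snd'.fst PT.snd'.snd.fst)
      (PT.snd'.snd.fst.lt (hf.comp (PT.fst'.pair PT.snd'.fst)))).congr fun z => by
        split_ifs <;> simp
  refine (apx_list (pt_box hN hN 2 (P := fun x y => if y.2.2 = 0 then y.1 ≠ y.2.1 else
    y.2.1 < f x y.1) h1) (fun x => nodup_box _ _ _ _) (w := fun x => sy (tw (a x) (b x)))
    (pt_sy (d := fun x => tw (a x) (b x)) (pt_tw ha hb))
    fun x => sy_comm _).congr fun x => ?_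
  rw [toFinset_box, haf_tw (a x) (b x) (N x) (prs (N x)) (fun e he => (mem_filter.1 he).2)]
  · have e : ∀ v, (cp ((range (N x) ×ˢ range (N x) ×ˢ range 2).filter fun y : V3 =>
        if y.2.2 = 0 then y.1 ≠ y.2.1 else y.2.1 < f x y.1) v).card = fc (N x) (f x) v := by
      intro v
      rw [← card_range (fc (N x) (f x) v)]
      symm
      refine card_bij (fun i _ => (v, i, 1)) (fun i hi => ?_) (fun i _ j _ h => by simpa using h) ?_
      · simp only [mem_range, fc] at hi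
        simp only [cp, mem_filter, mem_product, mem_range, if_neg one_ne_zero, and_true]
        split_ifs at hi <;> omega
      · rintro ⟨y1, y2, y3⟩ hy
        simp only [cp, mem_filter, mem_product, mem_range] at hy
        obtain ⟨⟨⟨h2, h3, -⟩, h4⟩, rfl, rfl⟩ := hy
        rw [if_neg one_ne_zero] at h4
        exact ⟨y2, by rw [mem_range, fc, if_pos h2]; omega, rfl⟩
    simp only [e]
    rfl
  · intro y hy
    simp only [mem_filter, mem_product, mem_range] at hy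
    omega
  · intro u v
    simp only [prs, mem_filter, mem_product, mem_range, if_true]
    omega

end Vale.Agent.N308S
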