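import Vale.Agent.N308S.Apx
import Vale.Agent.P308.ProgPT

/-!
Almost exact sampling from approximate counting (Jerrum, Valiant, Vazirani).
-/

namespace Vale.Agent.N308S

open Vale.Agent.Lib.PTM Vale.Agent.Lib.PolyTime Vale.Agent.P308.Poly

/-! ### The program -/

/-- numerator of the probability of the branch `true` -/
def pick (B a b : ℕ) : ℕ := 2 ^ B * b / (a + b)

/-- choice of a branch; the numerator of the probability of the path is recorded -/
def br (B k : ℕ) (s : List Bool × ℕ) (ρ : List Bool) : List Bool × ℕ :=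
  if val (ρ.take B) < k then (s.1 ++ [true], s.2 * k) else (s.1 ++ [false], s.2 * (2 ^ B - k))

/-- one step down the tree -/
def stp (est : List Bool → List Bool → ℕ) (t B : ℕ) (s : List Bool × ℕ) (ρ : List Bool) :
    List Bool × ℕ :=
  br B (pick B (est (s.1 ++ [false]) (ρ.take t)) (est (s.1 ++ [true]) ((ρ.drop t).take t))) s
    ((ρ.drop t).drop t)

/-- rejection at a leaf -/
def acc (w : List Bool → ℕ) (B D d Y : ℕ) (s : List Bool × ℕ) (ρ : List Bool) :
    Option (List Bool) :=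
  if val (ρ.take D) < 2 ^ D * w s.1 * 2 ^ (B * d) / (4 * Y * s.2) then some s.1 else none

/-- one trial -/
def trial (est : List Bool → List Bool → ℕ) (w : List Bool → ℕ) (t B D d Y : ℕ) (ρ : List Bool) :
    Option (List Bool) :=
  acc w B D d Y (runL (t + (t + B)) (fun _ : ℕ => stp est t B) (List.range d) ([], 1)
    (ρ.take (d * (t + (t + B))))) (ρ.drop (d * (t + (t + B))))

/-- repetition until the first success -/
def rep (tr : List Bool → Option (List Bool)) (C : ℕ) (l : List ℕ) (o : Option (List Bool))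
    (ρ : List Bool) : Option (List Bool) :=
  runL C (fun (_ : ℕ) o ρ => if o.isSome = true then o else tr ρ) l o ρ

/-- the sampler -/
def smp (est : List Bool → List Bool → ℕ) (w : List Bool → ℕ) (t B D d R : ℕ) (ρ : List Bool) :
    List Bool :=
  (rep (trial est w t B D d (est [] (ρ.take t))) (d * (t + (t + B)) + D) (List.range R) none
    (ρ.drop t)).getD (List.replicate (d + 1) true)

theorem pick_le (B a b : ℕ) : pick B a b ≤ 2 ^ B :=
  Nat.div_le_of_le_mul (by nlinarith [Nat.zero_le (a * 2 ^ B)])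

theorem walk_inv (est : List Bool → List Bool → ℕ) (t B C : ℕ) (l : List ℕ) (s : List Bool × ℕ)
    (hs : s.2 ≤ 2 ^ (B * s.1.length)) (ρ : List Bool) :
    (runL C (fun _ : ℕ => stp est t B) l s ρ).1.length = s.1.length + l.length ∧
      (runL C (fun _ : ℕ => stp est t B) l s ρ).2 ≤ 2 ^ (B * (s.1.length + l.length)) := by
  induction l generalizing s ρ with
  | nil => exact ⟨rfl, hs⟩
  | cons x l ih =>
    have h1 : (stp est t B s (ρ.take C)).1.length = s.1.length + 1 := by
      unfold stp br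
      split_ifs <;> simp
    have h2 : (stp est t B s (ρ.take C)).2 ≤ 2 ^ (B * (s.1.length + 1)) := by
      rw [mul_add, pow_add, mul_one]
      unfold stp br
      split_ifs
      · exact Nat.mul_le_mul hs (pick_le _ _ _)
      · exact Nat.mul_le_mul hs (Nat.sub_le _ _)
    have := ih (stp est t B s (ρ.take C)) (h1 ▸ h2) (ρ.drop C)
    rw [h1, add_assoc, add_comm 1] at this
    exact this

theorem trial_len {est : List Bool → List Bool → ℕ} {w : List Bool → ℕ} {t B D d Y : ℕ}
    {ρ s : List Bool} (h : trial est w t B D d Y ρ = some s) : s.length = d := by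
  unfold trial acc at h
  split_ifs at h
  rw [← Option.some.inj h, (walk_inv est t B _ _ ([], 1) (by simp) _).1]
  simp

/-! ### Polynomial time -/

section pt

variable {β : Type} [Enc β] {est : β → List Bool → List Bool → ℕ} {w : β → List Bool → ℕ}
  {t B D d R Y : β → ℕ}

theorem pt_two {k : β → ℕ} (hk : PU k) : PT ∅ fun x => 2 ^ k x := (PT.const 2).pow hk.pt hk.bd

theorem pt_br {k : β → ℕ} {s : β → List Bool × ℕ} {ρ : β → List Bool} (hB : PU B) (hk : PT ∅ k)
    (hs : PT ∅ s) (hρ : PT ∅ ρ) : PT ∅ fun x => br (B x) (k x) (s x) (ρ x) :=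
  PT.ite ((hρ.take hB.pt).valList.lt hk) ((hs.fst.append (PT.const _)).pair (hs.snd.mul hk))
    ((hs.fst.append (PT.const _)).pair (hs.snd.mul ((pt_two hB).sub hk)))

theorem pt_stp (he : PT ∅ fun z : β × List Bool × List Bool => est z.1 z.2.1 z.2.2) (ht : PU t)
    (hB : PU B) : PT ∅ fun z : β × ℕ × (List Bool × ℕ) × List Bool =>
      stp (est z.1) (t z.1) (B z.1) z.2.2.1 z.2.2.2 := by
  have t' : PT ∅ fun z : β × ℕ × (List Bool × ℕ) × List Bool => t z.1 := ht.pt.comp PT.fst'
  have hρ : PT ∅ fun z : β × ℕ × (List Bool × ℕ) × List Bool => z.2.2.2 := PT.snd'.snd.snd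
  have hs : PT ∅ fun z : β × ℕ × (List Bool × ℕ) × List Bool => z.2.2.1 := PT.snd'.snd.fst
  have a : PT ∅ fun z : β × ℕ × (List Bool × ℕ) × List Bool =>
      est z.1 (z.2.2.1.1 ++ [false]) (z.2.2.2.take (t z.1)) :=
    he.comp (PT.fst'.pair ((hs.fst.append (PT.const _)).pair (hρ.take t')))
  have b : PT ∅ fun z : β × ℕ × (List Bool × ℕ) × List Bool =>
      est z.1 (z.2.2.1.1 ++ [true]) ((z.2.2.2.drop (t z.1)).take (t z.1)) :=
    he.comp (PT.fst'.pair ((hs.fst.append (PT.const _)).pair ((hρ.drop t').take t')))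
  exact pt_br (hB.comp PT.fst') (((pt_two (hB.comp PT.fst')).mul b).div (a.add b)) hs
    ((hρ.drop t').drop t')

theorem esz_bools (p : List Bool) : esize p = 3 * p.length := by
  induction p with
  | nil => rfl
  | cons a p ih => rw [esize_list_cons, ih, esize_bool, List.length_cons]; omega

theorem pt_trial (he : PT ∅ fun z : β × List Bool × List Bool => est z.1 z.2.1 z.2.2)
    (hw : PT ∅ fun z : β × List Bool => w z.1 z.2) (ht : PU t) (hB : PU B) (hD : PU D) (hd : PU d)
    (hY : PT ∅ Y) {ρ : β → List Bool} (hρ : PT ∅ ρ) :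
    PT ∅ fun x => trial (est x) (w x) (t x) (B x) (D x) (d x) (Y x) (ρ x) := by
  have hC := ht.add (ht.add hB)
  have hC' := (hd.mul hC).pt
  have h1 : PT ∅ fun x => runL (t x + (t x + B x)) (fun _ : ℕ => stp (est x) (t x) (B x))
      (List.range (d x)) ([], 1) ((ρ x).take (d x * (t x + (t x + B x)))) := by
    refine PT.runL (step := fun x (_ : ℕ) => stp (est x) (t x) (B x)) hC.pt (pt_stp he ht hB)
      (PT.range hd.pt hd.bd) (PT.const _) (hρ.take hC')
      ((((PU.const 6).mul hd).add (hB.mul hd)).add (PU.const 2)).bd fun x i => ?_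
    obtain ⟨h1, h2⟩ := walk_inv (est x) (t x) (B x) (t x + (t x + B x))
      ((List.range (d x)).take i) ([], 1) (by simp) ((ρ x).take (d x * (t x + (t x + B x))))
    have h3 : ((List.range (d x)).take i).length ≤ d x := by simp
    rw [List.length_nil, zero_add] at h1 h2
    have h4 := esize_nat_le (k := B x * d x + 1) (lt_of_le_of_lt h2 (Nat.pow_lt_pow_right
      one_lt_two (Nat.lt_succ_of_le (Nat.mul_le_mul_left _ h3))))
    rw [← Prod.mk.eta (p := runL _ _ _ _ _), esize_pair, esz_bools]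
    omega
  exact PT.ite (((hρ.drop hC').take hD.pt).valList.lt ((((pt_two hD).mul
    (hw.comp (PT.id.pair h1.fst))).mul (pt_two (hB.mul hd))).div (((PT.const 4).mul hY).mul h1.snd)))
    h1.fst.some (PT.const _)

theorem pt_smp (he : PT ∅ fun z : β × List Bool × List Bool => est z.1 z.2.1 z.2.2)
    (hw : PT ∅ fun z : β × List Bool => w z.1 z.2) (ht : PU t) (hB : PU B) (hD : PU D) (hd : PU d)
    (hR : PU R) {ρ : β → List Bool} (hρ : PT ∅ ρ) :
    PT ∅ fun x => smp (est x) (w x) (t x) (B x) (D x) (d x) (R x) (ρ x) := by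
  have hY : PT ∅ fun x => est x [] ((ρ x).take (t x)) :=
    he.comp (PT.id.pair ((PT.const []).pair (hρ.take ht.pt)))
  have h1 := (hd.add (PU.const 1))
  refine PT.optGetD ?_ (PT.replicate h1.pt h1.bd (PT.const _))
  refine PT.runL (step := fun x (_ : ℕ) (o : Option (List Bool)) σ => if o.isSome = true then o else
    trial (est x) (w x) (t x) (B x) (D x) (d x) (est x [] ((ρ x).take (t x))) σ)
    ((hd.mul (ht.add (ht.add hB))).add hD).pt ?_ (PT.range hR.pt hR.bd) (PT.const _)
    (hρ.drop ht.pt) (((PU.const 3).mul hd).add (PU.const 1)).bd fun x i => ?_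
  · exact PT.ite (pt_true PT.snd'.snd.fst.isSome) PT.snd'.snd.fst
      (pt_trial (est := fun z : β × ℕ × Option (List Bool) × List Bool => est z.1)
        (w := fun z : β × ℕ × Option (List Bool) × List Bool => w z.1)
        (he.comp (PT.fst'.fst.pair PT.snd')) (hw.comp (PT.fst'.fst.pair PT.snd'))
        (ht.comp PT.fst') (hB.comp PT.fst') (hD.comp PT.fst') (hd.comp PT.fst') (hY.comp PT.fst')
        PT.snd'.snd.snd)
  · refine runL_inv (I := fun o : Option (List Bool) => esize o ≤ 3 * d x + 1)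
      (fun _ _ o σ ho => ?_) (Nat.zero_le _) _
    split_ifs
    · exact ho
    · rcases h : trial (est x) (w x) (t x) (B x) (D x) (d x) (est x [] ((ρ x).take (t x))) σ with
        _ | s
      · exact Nat.zero_le _
      · rw [← trial_len h, ← esz_bools]
        exact le_rfl

end pt

/-! ### The law of a trial -/

/-- the probability of the path -/
noncomputable def phi (B : ℕ) (s : List Bool × ℕ) : ℝ := s.2 / 2 ^ (B * s.1.length)

theorem phi_nonneg (B : ℕ) (s : List Bool × ℕ) : 0 ≤ phi B s := by unfold phi; positivity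

theorem phi_true (B k : ℕ) (s : List Bool × ℕ) :
    phi B (s.1 ++ [true], s.2 * k) = phi B s * (k / 2 ^ B) := by
  simp only [phi, List.length_append, List.length_singleton, mul_add, pow_add, mul_one]
  push_cast
  field_simp

theorem phi_false {B k : ℕ} (h : k ≤ 2 ^ B) (s : List Bool × ℕ) :
    phi B (s.1 ++ [false], s.2 * (2 ^ B - k)) = phi B s * (1 - k / 2 ^ B) := by
  simp only [phi, List.length_append, List.length_singleton, mul_add, pow_add, mul_one]
  push_cast [h]
  field_simp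

theorem op_stp (est : List Bool → List Bool → ℕ) (t B : ℕ) (G : List Bool × ℕ → ℝ)
    (s : List Bool × ℕ) : phi B s * op (t + (t + B)) (stp est t B) G s =
      Ex t fun x => Ex t fun y =>
        phi B (s.1 ++ [false], s.2 * (2 ^ B - pick B (est (s.1 ++ [false]) x)
            (est (s.1 ++ [true]) y))) * G (s.1 ++ [false], s.2 * (2 ^ B - pick B
              (est (s.1 ++ [false]) x) (est (s.1 ++ [true]) y))) +
          phi B (s.1 ++ [true], s.2 * pick B (est (s.1 ++ [false]) x) (est (s.1 ++ [true]) y)) *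
            G (s.1 ++ [true], s.2 * pick B (est (s.1 ++ [false]) x) (est (s.1 ++ [true]) y)) := by
  unfold op stp
  rw [Ex_split t (t + B) fun x z => G (br B (pick B (est (s.1 ++ [false]) x)
    (est (s.1 ++ [true]) (z.take t))) s (z.drop t)), ← Ex_mul]
  refine Ex_congr fun x _ => ?_
  rw [Ex_split t B fun y z => G (br B (pick B (est (s.1 ++ [false]) x)
    (est (s.1 ++ [true]) y)) s z), ← Ex_mul]
  refine Ex_congr fun y _ => ?_
  have hk := pick_le B (est (s.1 ++ [false]) x) (est (s.1 ++ [true]) y)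
  generalize pick B (est (s.1 ++ [false]) x) (est (s.1 ++ [true]) y) = k at hk
  simp only [br, apply_ite G]
  rw [Ex_lt le_rfl hk, phi_true, phi_false hk]
  ring

theorem pick_good {B a b P Q e : ℕ} (he : 6 ≤ e) (ha : |(a : ℝ) - P| ≤ P / e)
    (hb : |(b : ℝ) - Q| ≤ Q / e) (hB : e * (P + Q) ≤ 2 ^ B) :
    (0 < P → (1 - 3 / e) * P ≤ (1 - (pick B a b : ℝ) / 2 ^ B) * (P + Q)) ∧
      (0 < Q → (1 - 3 / e) * Q ≤ (pick B a b : ℝ) / 2 ^ B * (P + Q)) := by
  have e6 : (6 : ℝ) ≤ e := by exact_mod_cast he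
  have hB' : (e : ℝ) * (P + Q) ≤ 2 ^ B := by exact_mod_cast hB
  obtain ⟨u, hu, u0, u6⟩ : ∃ u : ℝ, u * e = 1 ∧ 0 < u ∧ u ≤ 1 / 6 :=
    ⟨1 / e, by field_simp, by positivity, one_div_le_one_div_of_le (by norm_num) e6⟩
  have hd : ∀ x : ℝ, x / e = x * u := fun x => by
    rw [div_eq_iff (by linarith), mul_assoc, hu, mul_one]
  rw [hd] at ha hb ⊢
  obtain ⟨a1, a2⟩ := abs_le.1 ha
  obtain ⟨b1, b2⟩ := abs_le.1 hb
  have P0 : (0 : ℝ) ≤ P := Nat.cast_nonneg P
  have Q0 : (0 : ℝ) ≤ Q := Nat.cast_nonneg Q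
  have a0 : (0 : ℝ) ≤ a := Nat.cast_nonneg a
  have b0 : (0 : ℝ) ≤ b := Nat.cast_nonneg b
  have T0 : (0 : ℝ) < 2 ^ B := by positivity
  have k1 : (pick B a b : ℝ) * (a + b) ≤ 2 ^ B * b := by
    exact_mod_cast Nat.div_mul_le_self (2 ^ B * b) (a + b)
  have hT : P + Q ≤ u * 2 ^ B := by
    have := mul_le_mul_of_nonneg_left hB' u0.le
    rwa [← mul_assoc, hu, one_mul] at this
  constructor
  · intro hP
    have hP' : (1 : ℝ) ≤ P := by exact_mod_cast hP
    have s0 : (0 : ℝ) < a + b := by nlinarith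
    have r1 : (pick B a b : ℝ) / 2 ^ B ≤ b / (a + b) := by
      rw [div_le_div_iff₀ T0 s0]; linarith
    have r2 : (1 - 3 * u) * P ≤ a / (a + b) * (P + Q) := by
      rw [div_mul_eq_mul_div, le_div_iff₀ s0]
      have h1 : (1 - 3 * u) * P * (a + b) ≤ (1 - 3 * u) * P * ((1 + u) * (P + Q)) :=
        mul_le_mul_of_nonneg_left (by linarith) (mul_nonneg (by linarith) P0)
      have h2 : (1 - u) * P * (P + Q) ≤ a * (P + Q) :=
        mul_le_mul_of_nonneg_right (by linarith) (by linarith)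
      nlinarith [mul_nonneg P0 (add_nonneg P0 Q0), mul_nonneg u0.le u0.le,
        mul_nonneg u0.le (mul_nonneg P0 (add_nonneg P0 Q0)),
        mul_nonneg (mul_nonneg u0.le u0.le) (mul_nonneg P0 (add_nonneg P0 Q0))]
    have r3 : (a : ℝ) / (a + b) = 1 - b / (a + b) := by field_simp; ring
    exact r2.trans (mul_le_mul_of_nonneg_right (by linarith) (by linarith))
  · intro hQ
    have hQ' : (1 : ℝ) ≤ Q := by exact_mod_cast hQ
    have s0 : (0 : ℝ) < a + b := by nlinarith
    have k2 : 2 ^ B * (b : ℝ) ≤ (a + b) * (pick B a b + 1) := by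
      exact_mod_cast (Nat.lt_mul_div_succ (2 ^ B * b) (by exact_mod_cast s0 : 0 < a + b)).le
    have r1 : (b : ℝ) / (a + b) ≤ pick B a b / 2 ^ B + 1 / 2 ^ B := by
      rw [← add_div, div_le_div_iff₀ s0 T0]; linarith
    have r2 : (1 - 2 * u) * Q ≤ b / (a + b) * (P + Q) := by
      rw [div_mul_eq_mul_div, le_div_iff₀ s0]
      have h1 : (1 - 2 * u) * Q * (a + b) ≤ (1 - 2 * u) * Q * ((1 + u) * (P + Q)) :=
        mul_le_mul_of_nonneg_left (by linarith) (mul_nonneg (by linarith) Q0)
      have h2 : (1 - u) * Q * (P + Q) ≤ b * (P + Q) :=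
        mul_le_mul_of_nonneg_right (by linarith) (by linarith)
      nlinarith [mul_nonneg (mul_nonneg u0.le u0.le) (mul_nonneg Q0 (add_nonneg P0 Q0))]
    have r3 : 1 / 2 ^ B * ((P : ℝ) + Q) ≤ u := by
      rw [one_div_mul_eq_div, div_le_iff₀ T0]; exact hT
    have r4 := mul_le_mul_of_nonneg_right r1 (add_nonneg P0 Q0)
    nlinarith [mul_le_mul_of_nonneg_left hQ' u0.le]

section law

variable {est : List Bool → List Bool → ℕ} {w W : List Bool → ℕ} {t B D d Y e : ℕ} {η : ℝ}
  {E : List Bool → Prop} {τ : List Bool → ℝ}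

/-- the probability that a leaf is accepted and lies in `E` -/
noncomputable def gE (w : List Bool → ℕ) (B D d Y : ℕ) (E : List Bool → Prop)
    (s : List Bool × ℕ) : ℝ := Ex D fun ρ => ind (∃ x, acc w B D d Y s ρ = some x ∧ E x)

theorem gE_eq (s : List Bool × ℕ) : gE w B D d Y E s =
    (min (2 ^ D * w s.1 * 2 ^ (B * d) / (4 * Y * s.2)) (2 ^ D) : ℕ) / 2 ^ D * ind (E s.1) := by
  have := Ex_lt (k := D) (m := D) le_rfl
    (min_le_right (2 ^ D * w s.1 * 2 ^ (B * d) / (4 * Y * s.2)) (2 ^ D)) (ind (E s.1)) 0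
  rw [zero_add, sub_zero] at this
  rw [← this]
  refine Ex_congr fun ρ hρ => ?_
  have h1 : val (ρ.take D) < 2 ^ D := lt_of_lt_of_le (val_lt _)
    (Nat.pow_le_pow_right two_pos (by simp))
  simp only [acc, lt_min_iff, h1, and_true]
  split_ifs
  · simp
  · exact ind_of_not (by simp)

theorem gE_nonneg (s : List Bool × ℕ) : 0 ≤ gE w B D d Y E s := Ex_nonneg fun _ => ind_nonneg _

theorem fold_nonneg (l : List ℕ) (s : List Bool × ℕ) : 0 ≤ l.foldr
    (fun _ g => op (t + (t + B)) (stp est t B) g) (gE w B D d Y E) s := by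
  induction l generalizing s with
  | nil => exact gE_nonneg s
  | cons x l ih => exact Ex_nonneg fun _ => ih _

theorem fold_le (h1 : ∀ p, p.length < d → τ p = τ (p ++ [false]) + τ (p ++ [true]))
    (h2 : ∀ s, s.length = d → τ s = w s * ind (E s)) (l : List ℕ) (s : List Bool × ℕ)
    (hs : s.1.length + l.length = d) : phi B s * l.foldr
      (fun _ g => op (t + (t + B)) (stp est t B) g) (gE w B D d Y E) s ≤ τ s.1 / (4 * Y) := by
  induction l generalizing s with
  | nil =>
    rw [List.length_nil, add_zero] at hs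
    rw [List.foldr_nil, gE_eq, h2 _ hs, ← mul_assoc, mul_div_right_comm, phi, hs]
    refine mul_le_mul_of_nonneg_right ?_ (ind_nonneg _)
    have h3 : ((min (2 ^ D * w s.1 * 2 ^ (B * d) / (4 * Y * s.2)) (2 ^ D) : ℕ) : ℝ) ≤
        2 ^ D * w s.1 * 2 ^ (B * d) / (4 * Y * s.2) := by
      refine (Nat.cast_le.2 (min_le_left _ _)).trans (Nat.cast_div_le.trans_eq ?_)
      push_cast
      rfl
    refine (mul_le_mul_of_nonneg_left (div_le_div_of_nonneg_right h3 (by positivity))
      (by positivity)).trans ?_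
    rcases Nat.eq_zero_or_pos s.2 with h | h
    · rw [h]
      simp only [Nat.cast_zero, zero_div, zero_mul]
      positivity
    rcases Nat.eq_zero_or_pos Y with h' | h'
    · simp [h']
    exact le_of_eq (by field_simp)
  | cons x l ih =>
    rw [List.length_cons] at hs
    rw [List.foldr_cons, op_stp, h1 _ (by omega), add_div]
    exact Ex_le fun x => Ex_le fun y => add_le_add (ih _ (by simp; omega)) (ih _ (by simp; omega))

theorem le_fold (h1 : ∀ p, p.length < d → τ p = τ (p ++ [false]) + τ (p ++ [true]))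
    (h2 : ∀ s, s.length = d → τ s = w s * ind (E s)) (h3 : ∀ p, 0 ≤ τ p)
    (h4 : ∀ p, p.length ≤ d → W p = 0 → τ p = 0)
    (hW : ∀ p, p.length < d → W p = W (p ++ [false]) + W (p ++ [true]))
    (hw : ∀ s, s.length = d → w s = W s) (he : 6 * d + 6 ≤ e)
    (hB : ∀ p, p.length ≤ d → e * W p ≤ 2 ^ B) (hη : 0 ≤ η)
    (hest : ∀ p, p.length ≤ d → 1 - η ≤ Ex t fun ρ => ind (|(est p ρ : ℝ) - W p| ≤ W p / e))
    (hZ : 0 < W []) (hY : W [] ≤ 2 * Y) (l : List ℕ) (s : List Bool × ℕ)
    (hs : s.1.length + l.length = d)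
    (hφ : (1 - 3 / e) ^ s.1.length * (W s.1 / W [] : ℝ) ≤ phi B s) :
    τ s.1 / (4 * Y) * (1 - 2 * l.length * η) - phi B s / 2 ^ D ≤ phi B s * l.foldr
      (fun _ g => op (t + (t + B)) (stp est t B) g) (gE w B D d Y E) s := by
  have e6 : (6 : ℝ) * d + 6 ≤ e := by exact_mod_cast he
  have d0 : (0 : ℝ) ≤ d := Nat.cast_nonneg d
  have u1 : (3 : ℝ) / e ≤ 1 / 2 := by rw [div_le_div_iff₀ (by linarith) two_pos]; linarith
  have Z0 : (0 : ℝ) < W [] := by exact_mod_cast hZ
  have hY' : (W [] : ℝ) ≤ 2 * Y := by exact_mod_cast hY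
  have Y0 : (0 : ℝ) < Y := by linarith
  induction l generalizing s with
  | nil =>
    rw [List.length_nil, add_zero] at hs
    have φ0 := phi_nonneg B s
    have T0 : (0 : ℝ) < 2 ^ D := by positivity
    rw [List.foldr_nil, gE_eq, h2 _ hs, List.length_nil, Nat.cast_zero, mul_zero, zero_mul, sub_zero,
      mul_one]
    by_cases hE : E s.1
    swap
    · rw [ind_of_not hE]
      simp only [mul_zero, zero_div, zero_sub, neg_nonpos]
      positivity
    rw [ind_of hE, mul_one, mul_one]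
    have b1 : (1 : ℝ) / 2 ≤ (1 - 3 / e) ^ s.1.length := by
      have := one_add_mul_le_pow (show (-2 : ℝ) ≤ -(3 / e) by linarith) s.1.length
      rw [hs, ← sub_eq_add_neg] at this
      have h5 : (d : ℝ) * (3 / e) ≤ 1 / 2 := by
        rw [← mul_div_assoc, div_le_div_iff₀ (by linarith) two_pos]; linarith
      rw [hs]
      linarith
    have b2 : (w s.1 : ℝ) / (4 * Y) ≤ phi B s := by
      refine le_trans ?_ ((mul_le_mul_of_nonneg_right b1 (by positivity)).trans hφ)
      rw [hw _ hs, div_mul_div_comm, one_mul]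
      exact div_le_div_of_nonneg_left (Nat.cast_nonneg _) (by positivity) (by linarith)
    rcases Nat.eq_zero_or_pos s.2 with h | h
    · have : phi B s = 0 := by simp [phi, h]
      rw [this] at b2 ⊢
      simpa using b2
    have s0 : (0 : ℝ) < s.2 := by exact_mod_cast h
    have y0 : 0 < 4 * Y * s.2 := by
      have : 0 < Y := by exact_mod_cast Y0
      positivity
    rw [phi, hs] at b2 ⊢
    rw [div_le_div_iff₀ (by positivity) (by positivity)] at b2
    have b3 : 2 ^ D * w s.1 * 2 ^ (B * d) / (4 * Y * s.2) ≤ 2 ^ D := by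
      refine Nat.div_le_of_le_mul ?_
      have : w s.1 * 2 ^ (B * d) ≤ s.2 * (4 * Y) := by exact_mod_cast b2
      nlinarith [Nat.mul_le_mul_left (2 ^ D) this]
    have b4 : (2 : ℝ) ^ D * w s.1 * 2 ^ (B * d) ≤ 4 * Y * s.2 *
        ((2 ^ D * w s.1 * 2 ^ (B * d) / (4 * Y * s.2) : ℕ) + 1) := by
      exact_mod_cast (Nat.lt_mul_div_succ (2 ^ D * w s.1 * 2 ^ (B * d)) y0).le
    rw [min_eq_left b3, sub_le_iff_le_add, div_le_iff₀ (by positivity)]
    generalize ((2 ^ D * w s.1 * 2 ^ (B * d) / (4 * Y * s.2) : ℕ) : ℝ) = N at b4 ⊢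
    have b5 : ((s.2 : ℝ) / 2 ^ (B * d) * (N / 2 ^ D) + s.2 / 2 ^ (B * d) / 2 ^ D) * (4 * Y) =
        4 * Y * s.2 * (N + 1) / (2 ^ D * 2 ^ (B * d)) := by field_simp
    rw [b5, le_div_iff₀ (by positivity)]
    linarith
  | cons x l ih =>
    rw [List.length_cons] at hs
    have hp : s.1.length < d := by omega
    have κ0 : 0 ≤ τ s.1 / (4 * Y) := div_nonneg (h3 _) (by positivity)
    have g0 := hest (s.1 ++ [false]) (by simp; omega)
    have g1 := hest (s.1 ++ [true]) (by simp; omega)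
    have key : ∀ (b : Bool) (m : ℕ) (r : ℝ), 0 ≤ r → phi B (s.1 ++ [b], m) = phi B s * r →
        (0 < W (s.1 ++ [b]) → (1 - 3 / e) * W (s.1 ++ [b]) ≤ r * (W s.1 : ℝ)) →
        τ (s.1 ++ [b]) / (4 * Y) * (1 - 2 * l.length * η) - phi B (s.1 ++ [b], m) / 2 ^ D ≤
          phi B (s.1 ++ [b], m) * l.foldr (fun _ g => op (t + (t + B)) (stp est t B) g)
            (gE w B D d Y E) (s.1 ++ [b], m) := by
      intro b m r r0 hr hb
      rcases Nat.eq_zero_or_pos (W (s.1 ++ [b])) with h | h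
      · rw [h4 _ (by simp; omega) h, zero_div, zero_mul, zero_sub]
        have := phi_nonneg B (s.1 ++ [b], m)
        exact le_trans (neg_nonpos.2 (by positivity)) (mul_nonneg this (fold_nonneg _ _))
      refine ih (s.1 ++ [b], m) (by simp; omega) ?_
      rw [hr]
      refine le_trans ?_ (mul_le_mul_of_nonneg_right hφ r0)
      have := mul_le_mul_of_nonneg_left (hb h)
        (div_nonneg (pow_nonneg (show (0 : ℝ) ≤ 1 - 3 / e by linarith) s.1.length) Z0.le)
      simp only [List.length_append, List.length_singleton, pow_succ]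
      refine le_of_eq_of_le ?_ (this.trans_eq ?_) <;> ring
    rw [List.foldr_cons, op_stp]
    refine le_trans ?_ (Ex_mono (F := fun x => Ex t fun y =>
      τ s.1 / (4 * Y) * (1 - 2 * l.length * η) - phi B s / 2 ^ D - 2 * (τ s.1 / (4 * Y)) +
        τ s.1 / (4 * Y) * ind (|(est (s.1 ++ [false]) x : ℝ) - W (s.1 ++ [false])| ≤
          W (s.1 ++ [false]) / e) + τ s.1 / (4 * Y) * ind (|(est (s.1 ++ [true]) y : ℝ) -
            W (s.1 ++ [true])| ≤ W (s.1 ++ [true]) / e)) fun x _ => Ex_mono fun y _ => ?_)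
    · simp only [Ex_add, Ex_mul, Ex_const, List.length_cons]
      push_cast
      nlinarith [mul_le_mul_of_nonneg_left g0 κ0, mul_le_mul_of_nonneg_left g1 κ0]
    have hk := pick_le B (est (s.1 ++ [false]) x) (est (s.1 ++ [true]) y)
    have n0 := mul_nonneg (phi_nonneg B (s.1 ++ [false], s.2 * (2 ^ B - pick B
      (est (s.1 ++ [false]) x) (est (s.1 ++ [true]) y)))) (fold_nonneg (est := est) (t := t)
        (B := B) (w := w) (D := D) (d := d) (Y := Y) (E := E) l (s.1 ++ [false], s.2 * (2 ^ B -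
          pick B (est (s.1 ++ [false]) x) (est (s.1 ++ [true]) y))))
    have n1 := mul_nonneg (phi_nonneg B (s.1 ++ [true], s.2 * pick B
      (est (s.1 ++ [false]) x) (est (s.1 ++ [true]) y))) (fold_nonneg (est := est) (t := t)
        (B := B) (w := w) (D := D) (d := d) (Y := Y) (E := E) l (s.1 ++ [true], s.2 *
          pick B (est (s.1 ++ [false]) x) (est (s.1 ++ [true]) y)))
    have n2 : 0 ≤ phi B s / 2 ^ D := div_nonneg (phi_nonneg B s) (by positivity)
    have n3 : 0 ≤ τ s.1 / (4 * Y) * (2 * l.length * η) := mul_nonneg κ0 (by positivity)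
    by_cases c0 : |(est (s.1 ++ [false]) x : ℝ) - W (s.1 ++ [false])| ≤ W (s.1 ++ [false]) / e
    swap
    · rw [ind_of_not c0]
      nlinarith [mul_le_mul_of_nonneg_left (ind_le_one (|(est (s.1 ++ [true]) y : ℝ) -
        W (s.1 ++ [true])| ≤ W (s.1 ++ [true]) / e)) κ0]
    by_cases c1 : |(est (s.1 ++ [true]) y : ℝ) - W (s.1 ++ [true])| ≤ W (s.1 ++ [true]) / e
    swap
    · rw [ind_of_not c1, ind_of c0]
      nlinarith
    obtain ⟨p0, p1⟩ := pick_good (B := B) (by omega) c0 c1 (hW _ hp ▸ hB _ hp.le)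
    rw [← Nat.cast_add, ← hW _ hp] at p0 p1
    generalize pick B (est (s.1 ++ [false]) x) (est (s.1 ++ [true]) y) = k at *
    have k1 : (k : ℝ) / 2 ^ B ≤ 1 := by
      rw [div_le_one (by positivity)]; exact_mod_cast hk
    have q0 := key false _ _ (by linarith) (phi_false hk s) p0
    have q1 := key true _ _ (by positivity) (phi_true B k s) p1
    have q2 : phi B s / 2 ^ D = phi B (s.1 ++ [false], s.2 * (2 ^ B - k)) / 2 ^ D +
        phi B (s.1 ++ [true], s.2 * k) / 2 ^ D := by
      rw [phi_false hk, phi_true]; ring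
    rw [ind_of c0, ind_of c1, q2, h1 _ hp, add_div]
    linarith

theorem Ex_trial (E : List Bool → Prop) : Ex (d * (t + (t + B)) + D)
    (fun ρ => ind (∃ x, trial est w t B D d Y ρ = some x ∧ E x)) = phi B ([], 1) *
      (List.range d).foldr (fun _ g => op (t + (t + B)) (stp est t B) g) (gE w B D d Y E) ([], 1) := by
  unfold trial
  rw [Ex_split (d * (t + (t + B))) D fun x y => ind (∃ z, acc w B D d Y (runL (t + (t + B))
    (fun _ : ℕ => stp est t B) (List.range d) ([], 1) x) y = some z ∧ E z),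
    ← Ex_runL (t + (t + B)) (fun _ : ℕ => stp est t B) _ _ _ (m := d * (t + (t + B))) (by simp)]
  simp [phi, gE]

end law

/-! ### Repetition -/

theorem rep_some (tr : List Bool → Option (List Bool)) (C : ℕ) (l : List ℕ) (x ρ : List Bool) :
    rep tr C l (some x) ρ = some x :=
  runL_inv (I := fun o => o = some x) (fun _ _ _ _ h => by simp [h]) rfl ρ

theorem Ex_rep (tr : List Bool → Option (List Bool)) (C : ℕ) (s : List Bool) (l : List ℕ) {m : ℕ}
    (hm : l.length * C ≤ m) :
    Ex m (fun ρ => ind (rep tr C l none ρ = some s)) *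
        (Ex C fun ρ => ind (∃ x, tr ρ = some x ∧ True)) =
      (Ex C fun ρ => ind (∃ x, tr ρ = some x ∧ x = s)) *
        (1 - (1 - Ex C fun ρ => ind (∃ x, tr ρ = some x ∧ True)) ^ l.length) := by
  induction l generalizing m with
  | nil => simp [rep, runL, ind, Ex_const]
  | cons a l ih =>
    rw [List.length_cons, add_mul, one_mul] at hm
    have h1 : Ex m (fun ρ => ind (rep tr C (a :: l) none ρ = some s)) =
        (Ex C fun ρ => ind (∃ x, tr ρ = some x ∧ x = s)) +
          (1 - Ex C fun ρ => ind (∃ x, tr ρ = some x ∧ True)) *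
            Ex (m - C) (fun ρ => ind (rep tr C l none ρ = some s)) := by
      rw [← Ex_const C 1, ← Ex_sub, ← Ex_mul', ← Ex_add]
      refine (Ex_split' (show C ≤ m by omega) fun x y => ind (rep tr C l (tr x) y = some s)).trans
        (Ex_congr fun x _ => ?_)
      rcases tr x with _ | z
      · simp [ind]
      · simp [rep_some, Ex_const, ind]
    rw [h1, add_mul, mul_assoc, ih (by omega), List.length_cons, pow_succ]
    ring

theorem ratio_est {P q Q y π θ r : ℝ} (h : P * Q = q * (1 - r)) (hθ : 0 ≤ θ) (hθ' : θ ≤ 1 / 4)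
    (hπ : 0 ≤ π) (hy : 0 < y) (q1 : q ≤ π * y) (q2 : π * y * (1 - 2 * θ) ≤ q) (Q1 : Q ≤ y)
    (Q2 : y * (1 - 2 * θ) ≤ Q) (r0 : 0 ≤ r) (r1 : r ≤ θ) (P0 : 0 ≤ P) : |P - π| ≤ 4 * θ * π := by
  have q0 : 0 ≤ q := le_trans (mul_nonneg (mul_nonneg hπ hy.le) (by linarith)) q2
  have a1 : P * (1 - 2 * θ) ≤ π := by
    refine le_of_mul_le_mul_right ?_ hy
    nlinarith [mul_le_mul_of_nonneg_left Q2 P0, mul_nonneg q0 r0]
  have a2 : π * ((1 - 2 * θ) * (1 - θ)) ≤ P := by
    refine le_of_mul_le_mul_right ?_ hy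
    have h1 := mul_le_mul q2 (show 1 - θ ≤ 1 - r by linarith) (by linarith) q0
    nlinarith [mul_le_mul_of_nonneg_left Q1 P0]
  refine abs_le.2 ⟨by nlinarith [mul_nonneg hπ (mul_nonneg hθ hθ), mul_nonneg hπ hθ], ?_⟩
  have a3 : P ≤ 2 * π := by nlinarith
  nlinarith [mul_le_mul_of_nonneg_left a3 hθ]

theorem prefix_split {p s : List Bool} (h : p.length < s.length) :
    ind (p <+: s) = ind (p ++ [false] <+: s) + ind (p ++ [true] <+: s) := by
  by_cases hp : p <+: s
  · obtain ⟨r, rfl⟩ := hp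
    rcases r with _ | ⟨b, r⟩
    · simp at h
    · cases b <;> simp [ind, List.prefix_append_right_inj]
  · rw [ind_of_not hp, ind_of_not fun h => hp ((List.prefix_append _ _).trans h),
      ind_of_not fun h => hp ((List.prefix_append _ _).trans h), add_zero]

theorem le_of_prefix {W : List Bool → ℕ} {d : ℕ}
    (hW : ∀ p, p.length < d → W p = W (p ++ [false]) + W (p ++ [true])) (r p : List Bool)
    (h : (p ++ r).length ≤ d) : W (p ++ r) ≤ W p := by
  induction r generalizing p with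
  | nil => simp
  | cons b r ih =>
    have h1 := ih (p ++ [b]) (by simpa using h)
    have h2 := hW p (by simp at h; omega)
    rw [List.append_assoc, List.singleton_append] at h1
    cases b <;> omega

theorem le_two_pow {W : List Bool → ℕ} {d K : ℕ}
    (hW : ∀ p, p.length < d → W p = W (p ++ [false]) + W (p ++ [true]))
    (hK : ∀ s, s.length = d → W s ≤ 2 ^ K) (j : ℕ) (p : List Bool) (h : p.length + j = d) :
    W p ≤ 2 ^ (K + j) := by
  induction j generalizing p with
  | zero => exact hK p h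
  | succ j ih =>
    have h0 := ih (p ++ [false]) (by simp; omega)
    have h1 := ih (p ++ [true]) (by simp; omega)
    rw [hW p (by omega), ← add_assoc, pow_succ]
    omega

theorem smp_law {est : List Bool → List Bool → ℕ} {w W : List Bool → ℕ} {t B D d e R m : ℕ}
    {η θ : ℝ} (hW : ∀ p, p.length < d → W p = W (p ++ [false]) + W (p ++ [true]))
    (hw : ∀ s, s.length = d → w s = W s) (he : 6 * d + 6 ≤ e) (hB : e * W [] ≤ 2 ^ B) (hη : 0 ≤ η)
    (hest : ∀ p, p.length ≤ d → 1 - η ≤ Ex t fun ρ => ind (|(est p ρ : ℝ) - W p| ≤ W p / e))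
    (hZ : 0 < W []) (hθ : θ ≤ 1 / 4) (h1 : 2 * d * η ≤ θ) (h2 : η * W [] ≤ θ)
    (h3 : 6 * W [] ≤ θ * 2 ^ D) (h4 : (11 / 12) ^ R ≤ θ)
    (hm : t + R * (d * (t + (t + B)) + D) ≤ m) {s : List Bool} (hs : s.length = d) :
    |Ex m (fun ρ => ind (smp est w t B D d R ρ = s)) - (W s : ℝ) / W []| ≤
      5 * θ * ((W s : ℝ) / W []) := by
  have Z1 : (1 : ℝ) ≤ W [] := by exact_mod_cast hZ
  have θ0 : 0 ≤ θ := le_trans (by positivity) h4
  have mono : ∀ p, p.length ≤ d → W p ≤ W [] := fun p hp => le_of_prefix hW p [] hp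
  have hB' : ∀ p, p.length ≤ d → e * W p ≤ 2 ^ B := fun p hp =>
    (Nat.mul_le_mul_left _ (mono p hp)).trans hB
  have e1 : Ex m (fun ρ => ind (smp est w t B D d R ρ = s)) = Ex t fun x => Ex (m - t) fun y =>
      ind (rep (trial est w t B D d (est [] x)) (d * (t + (t + B)) + D) (List.range R) none y =
        some s) := by
    rw [← Ex_split' (show t ≤ m by omega)]
    refine Ex_congr fun ρ _ => congrArg ind (propext ?_)
    unfold smp
    rcases rep (trial est w t B D d (est [] (ρ.take t))) (d * (t + (t + B)) + D) (List.range R)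
      none (ρ.drop t) with _ | z
    · refine iff_of_false (fun h => ?_) (by simp)
      have := congrArg List.length h
      simp [hs] at this
    · simp
  have a1 : ∀ p, p.length < d → (W s : ℝ) * ind (p <+: s) =
      W s * ind (p ++ [false] <+: s) + W s * ind (p ++ [true] <+: s) := fun p hp => by
    rw [prefix_split (hs ▸ hp), mul_add]
  have a2 : ∀ x, x.length = d → (W s : ℝ) * ind (x <+: s) = w x * ind (x = s) := fun x hx => by
    by_cases h : x = s
    · rw [h, hw s hs, ind_of List.prefix_rfl, ind_of rfl]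
    · rw [ind_of_not h, ind_of_not fun h' => h (h'.eq_of_length (hx.trans hs.symm)), mul_zero,
        mul_zero]
  have a3 : ∀ p, p.length < d → (W p : ℝ) = W (p ++ [false]) + W (p ++ [true]) := fun p hp => by
    exact_mod_cast hW p hp
  have a4 : ∀ x, x.length = d → (W x : ℝ) = w x * ind True := fun x hx => by
    rw [hw x hx, ind_of trivial, mul_one]
  have u1 : ∀ Y : ℕ, Ex (d * (t + (t + B)) + D)
      (fun ρ => ind (∃ x, trial est w t B D d Y ρ = some x ∧ x = s)) ≤ W s / (4 * Y) := fun Y => by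
    have := fold_le (est := est) (t := t) (B := B) (D := D) (Y := Y) a1 a2 (List.range d) ([], 1)
      (by simp)
    rwa [← Ex_trial, ind_of List.nil_prefix, mul_one] at this
  rw [e1]
  rcases Nat.eq_zero_or_pos (W s) with h0 | h0
  · simp only [h0, Nat.cast_zero, zero_div, mul_zero, sub_zero, abs_nonpos_iff] at u1 ⊢
    refine le_antisymm (Ex_le fun x => ?_) (Ex_nonneg fun _ => Ex_nonneg fun _ => ind_nonneg _)
    generalize est [] x = Y
    have : ∀ (l : List ℕ) (k : ℕ), l.length * (d * (t + (t + B)) + D) ≤ k → Ex k (fun y =>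
        ind (rep (trial est w t B D d Y) (d * (t + (t + B)) + D) l none y = some s)) ≤ 0 := by
      intro l
      induction l with
      | nil => intro k _; simp [rep, runL, ind, Ex_const]
      | cons a l ih =>
        intro k hk
        rw [List.length_cons, add_mul, one_mul] at hk
        refine (Ex_split' (show d * (t + (t + B)) + D ≤ k by omega) fun x y =>
          ind (rep (trial est w t B D d Y) (d * (t + (t + B)) + D) l (trial est w t B D d Y x) y =
            some s)).trans_le (le_trans (Ex_mono fun x _ => ?_) (u1 Y))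
        rcases trial est w t B D d Y x with _ | z
        · exact (ih _ (by omega)).trans (ind_nonneg _)
        · simp [rep_some, Ex_const]
    exact this _ _ (by simp; omega)
  have s1 : (1 : ℝ) ≤ W s := by exact_mod_cast h0
  have π0 : (0 : ℝ) ≤ W s / W [] := by positivity
  have π1 : (W s : ℝ) / W [] ≤ 1 := by
    rw [div_le_one (by linarith)]; exact_mod_cast mono s hs.le
  have good : ∀ Y : ℕ, |(Y : ℝ) - W []| ≤ W [] / e → |Ex (m - t) (fun y => ind (rep
      (trial est w t B D d Y) (d * (t + (t + B)) + D) (List.range R) none y = some s)) -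
        (W s : ℝ) / W []| ≤ 4 * θ * ((W s : ℝ) / W []) := by
    intro Y hY
    have e2 : (2 : ℝ) ≤ e := by exact_mod_cast (show 2 ≤ e by omega)
    obtain ⟨y1, y2⟩ := abs_le.1 (hY.trans (div_le_div_of_nonneg_left (by linarith) two_pos e2))
    have Y0 : (0 : ℝ) < Y := by linarith
    have hY' : W [] ≤ 2 * Y := by exact_mod_cast (show (W [] : ℝ) ≤ 2 * Y by linarith)
    have l1 := le_fold (D := D) a1 a2 (fun p => mul_nonneg (by linarith) (ind_nonneg _))
      (fun p hp h => by
        by_cases h' : p <+: s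
        · obtain ⟨r, rfl⟩ := h'
          have := le_of_prefix hW r p hs.le
          omega
        · rw [ind_of_not h', mul_zero]) hW hw he hB' hη hest hZ hY' (List.range d) ([], 1) (by simp)
      (by simp [phi, hZ.ne'])
    have l2 := le_fold (D := D) (E := fun _ => True) a3 a4 (fun p => Nat.cast_nonneg _)
      (fun p _ h => by exact_mod_cast h) hW hw he hB' hη hest hZ hY' (List.range d) ([], 1)
      (by simp) (by simp [phi, hZ.ne'])
    have u2 := fold_le (est := est) (t := t) (B := B) (D := D) (Y := Y) (E := fun _ => True) a3 a4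
      (List.range d) ([], 1) (by simp)
    rw [← Ex_trial] at l1 l2 u2
    have φ1 : phi B ([], 1) = 1 := by simp [phi]
    rw [φ1, List.length_range] at l1 l2
    rw [ind_of List.nil_prefix, mul_one] at l1
    have c1 : (1 : ℝ) / 6 ≤ W [] / (4 * Y) := by
      rw [div_le_div_iff₀ (by norm_num) (by positivity)]; linarith
    have c2 : (W s : ℝ) / (4 * Y) = W s / W [] * (W [] / (4 * Y)) := by field_simp
    have c3 : (1 : ℝ) / 2 ^ D ≤ θ * (1 / (4 * Y)) := by
      rw [mul_one_div, div_le_div_iff₀ (by positivity) (by positivity)]; linarith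
    have c4 : ∀ x : ℝ, 1 ≤ x → x / (4 * Y) * (1 - 2 * θ) ≤
        x / (4 * Y) * (1 - 2 * d * η) - 1 / 2 ^ D := fun x hx => by
      have k1 : θ * (1 / (4 * Y)) ≤ θ * (x / (4 * Y)) :=
        mul_le_mul_of_nonneg_left (div_le_div_of_nonneg_right hx (by positivity)) θ0
      have k2 := mul_le_mul_of_nonneg_left h1 (show 0 ≤ x / (4 * Y) by positivity)
      linarith
    have l3 := (c4 _ Z1).trans l2
    have hr := Ex_rep (trial est w t B D d Y) (d * (t + (t + B)) + D) s (List.range R)
      (m := m - t) (by simp; omega)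
    have Q1 := Ex_le (m := d * (t + (t + B)) + D) fun ρ =>
      ind_le_one (∃ x, trial est w t B D d Y ρ = some x ∧ True)
    refine ratio_est hr θ0 hθ π0 (by linarith) (c2 ▸ u1 Y) (c2 ▸ (c4 _ s1).trans l1) u2 l3
      (pow_nonneg (by linarith) _) (le_trans ?_ h4) (Ex_nonneg fun _ => ind_nonneg _)
    rw [List.length_range]
    exact pow_le_pow_left₀ (by linarith) (by nlinarith) R
  have g0 := hest [] (Nat.zero_le _)
  have η1 : η ≤ θ * ((W s : ℝ) / W []) := by
    rw [← mul_div_assoc, le_div_iff₀ (by linarith)]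
    nlinarith
  have pt : ∀ x, |Ex (m - t) (fun y => ind (rep (trial est w t B D d (est [] x))
      (d * (t + (t + B)) + D) (List.range R) none y = some s)) - (W s : ℝ) / W []| ≤
        4 * θ * ((W s : ℝ) / W []) + 1 - ind (|(est [] x : ℝ) - W []| ≤ W [] / e) := fun x => by
    by_cases h : |(est [] x : ℝ) - W []| ≤ W [] / e
    · rw [ind_of h, add_sub_cancel_right]
      exact good _ h
    · rw [ind_of_not h]
      have b0 := Ex_nonneg (m := m - t) fun y => ind_nonneg (rep (trial est w t B D d (est [] x))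
        (d * (t + (t + B)) + D) (List.range R) none y = some s)
      have b1 := Ex_le (m := m - t) fun y => ind_le_one (rep (trial est w t B D d (est [] x))
        (d * (t + (t + B)) + D) (List.range R) none y = some s)
      have b2 := mul_nonneg θ0 π0
      exact abs_le.2 ⟨by linarith, by linarith⟩
  have p1 := Ex_mono (m := t) fun x _ => (abs_le.1 (pt x)).2
  have p2 := Ex_mono (m := t) fun x _ => neg_le.1 (abs_le.1 (pt x)).1
  simp only [Ex_sub, Ex_const, neg_sub] at p1 p2
  exact abs_le.2 ⟨by linarith, by linarith⟩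

/-! ### The parameters -/

theorem pu_pb {β : Type} [Enc β] {f : β → ℕ} (hf : PU f) (c : ℕ) : PU fun x => pb c (f x) :=
  ⟨(hf.pt.add (PT.const 2)).powConst c, (hf.bd.add (PBd.const 2)).pow c⟩

theorem jvv : JVV := by
  intro α _ d W w hd hd' ⟨f, c, hf, H⟩ hw hW hl
  obtain ⟨c₂, h₂⟩ := hw.pbd
  have d' : PU fun y : α × Un => d y.1 := (PU.mk hd hd').comp PT.fst'
  have l' : PU fun y : α × Un => y.2.v := ⟨PT.snd'.unVal, PBd.unVal (A := ∅) PT.snd'⟩
  have s' : PU fun y : α × Un => esize y.1 := ⟨PT.fst'.size, (PT.fst' (A := ∅)).pbd⟩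
  obtain ⟨z, hz, z'⟩ : ∃ z : α × Un → ℕ, (∀ y, z y = 2 * esize y.1 + 3 * d y.1 + 1) ∧ PU z :=
    ⟨_, fun _ => rfl, (((PU.const 2).mul s').add ((PU.const 3).mul d')).add (PU.const 1)⟩
  obtain ⟨K, hK, K'⟩ : ∃ K : α × Un → ℕ, (∀ y, K y = pb c₂ (z y) + d y.1) ∧ PU K :=
    ⟨_, fun _ => rfl, (pu_pb z' c₂).add d'⟩
  obtain ⟨e, he, e'⟩ : ∃ e : α × Un → ℕ, (∀ y, e y = 6 * d y.1 + 6) ∧ PU e :=
    ⟨_, fun _ => rfl, ((PU.const 6).mul d').add (PU.const 6)⟩
  obtain ⟨L, hL, L'⟩ : ∃ L : α × Un → ℕ, (∀ y, L y = y.2.v + 3 + (K y + d y.1 + 1)) ∧ PU L :=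
    ⟨_, fun _ => rfl, (l'.add (PU.const 3)).add ((K'.add d').add (PU.const 1))⟩
  obtain ⟨t, ht, t'⟩ : ∃ t : α × Un → ℕ, (∀ y, t y = pb c (z y + e y + L y)) ∧ PU t :=
    ⟨_, fun _ => rfl, pu_pb ((z'.add e').add L') c⟩
  have B' := e'.add K'
  have D' := (l'.add (PU.const 3)).add (K'.add (PU.const 3))
  have R' := (PU.const 8).mul (l'.add (PU.const 3))
  obtain ⟨c₃, h₃⟩ := (t'.add (R'.mul ((d'.mul (t'.add (t'.add B'))).add D'))).bd
  obtain ⟨c₄, h₄⟩ := PB.exists_pb ((PB.pb c₃).comp (((PB.const 2).mul PB.id).add (PB.const 1)))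
  have p1 : PT ∅ fun q : ((α × Un) × List Bool) × List Bool × List Bool => q.1.1 := PT.fst'.fst
  have p2 : PT ∅ fun u : ((α × Un) × List Bool) × List Bool × List Bool =>
      f (((u.1.1.1, u.2.1), ⟨e u.1.1⟩, ⟨L u.1.1⟩), u.2.2) :=
    hf.comp (((p1.fst.pair PT.snd'.fst).pair (((PT.mkUn e'.pt e'.bd).comp p1).pair
      ((PT.mkUn L'.pt L'.bd).comp p1))).pair PT.snd'.snd)
  have p3 : PT ∅ fun u : ((α × Un) × List Bool) × List Bool => w (u.1.1.1, u.2) :=
    hw.comp (PT.fst'.fst.fst.pair PT.snd')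
  have p0 : PT ∅ fun q : (α × Un) × List Bool => q.1 := PT.fst'
  have p4 := pt_smp (est := fun (q : (α × Un) × List Bool) p ρ =>
    f (((q.1.1, p), ⟨e q.1⟩, ⟨L q.1⟩), ρ)) (w := fun (q : (α × Un) × List Bool) s => w (q.1.1, s))
    p2 p3 (t'.comp p0) (B'.comp p0) (D'.comp p0) (d'.comp p0) (R'.comp p0) PT.snd'
  refine ⟨_, c₄, p4, fun x l m hm hZ s hs => ?_⟩
  dsimp only
  have a1 : ∀ p : List Bool, p.length ≤ d x → esize (x, p) ≤ z (x, ⟨l⟩) := fun p hp => by
    rw [hz, esize_pair, esz_bools]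
    dsimp only
    omega
  have a2 : W (x, []) ≤ 2 ^ K (x, ⟨l⟩) := by
    rw [hK]
    refine le_two_pow (W := fun p => W (x, p)) (hW x) (fun s hs => ?_) _ [] (by simp)
    rw [← hl x s hs]
    exact (lt_two_pow_esize _).le.trans
      (Nat.pow_le_pow_right two_pos ((h₂ _).trans (pb_mono _ (a1 s hs.le))))
  have a3 : (W (x, []) : ℝ) ≤ 2 ^ K (x, ⟨l⟩) := by exact_mod_cast a2
  have a4 : ((1 : ℝ) / 2) ^ L (x, ⟨l⟩) * 2 ^ (K (x, ⟨l⟩) + d x + 1) = (1 / 2) ^ (l + 3) := by
    rw [hL, pow_add, mul_assoc, ← mul_pow]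
    simp
  have a5 : (0 : ℝ) ≤ (1 / 2) ^ L (x, ⟨l⟩) := by positivity
  refine (smp_law (W := fun p => W (x, p)) (e := e (x, ⟨l⟩)) (η := (1 / 2) ^ L (x, ⟨l⟩))
    (θ := (1 / 2) ^ (l + 3)) (hW x) (hl x) (he (x, ⟨l⟩)).ge ?_ a5 (fun p hp => H (x, p) _ _ _
      (by rw [he]; omega) ?_) hZ ?_ ?_ ?_ ?_ ?_ ?_ hs).trans ?_
  · rw [pow_add]
    exact Nat.mul_le_mul Nat.lt_two_pow_self.le a2
  · rw [ht]
    exact pb_mono _ (by have := a1 p hp; omega)
  · rw [pow_add]
    have := pow_le_one₀ (n := l) (show (0 : ℝ) ≤ 1 / 2 by norm_num) (by norm_num)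
    linarith
  · rw [← a4, mul_comm]
    refine mul_le_mul_of_nonneg_left ?_ a5
    have : 2 * d x ≤ 2 ^ (K (x, ⟨l⟩) + d x + 1) := by
      rw [pow_succ, mul_comm]
      exact Nat.mul_le_mul_right _ (Nat.lt_two_pow_self.le.trans
        (Nat.pow_le_pow_right two_pos (Nat.le_add_left _ _)))
    exact_mod_cast this
  · rw [← a4]
    exact mul_le_mul_of_nonneg_left (a3.trans (pow_le_pow_right₀ one_le_two (by omega))) a5
  · have a6 : ((1 : ℝ) / 2) ^ (l + 3) * 2 ^ (l + 3) = 1 := by rw [← mul_pow]; simp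
    rw [pow_add 2, ← mul_assoc, a6, pow_add]
    linarith [(by positivity : (0 : ℝ) ≤ 2 ^ K (x, ⟨l⟩))]
  · rw [pow_mul]
    exact pow_le_pow_left₀ (by positivity) (by norm_num) _
  · refine le_trans (h₃ (x, ⟨l⟩)) (le_trans (pb_mono _ ?_) ((h₄ _).trans hm))
    rw [esize_pair, esize_un]
    dsimp only
    omega
  · refine mul_le_mul_of_nonneg_right ?_ (by positivity)
    rw [pow_add]
    linarith [(by positivity : (0 : ℝ) ≤ (1 / 2) ^ l)]

end Vale.Agent.N308S
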