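import Vale.Agent.N308.Defs
import Vale.Agent.N308S.Jvv
import Vale.Agent.Lib.PTM.Sim

/-!
From the typed layer to probabilistic Turing machines.
-/

namespace Vale.Agent.N308S

open Vale.Agent.Lib.PTM Vale.Agent.Lib.PolyTime Vale.Agent.P308.Poly
open Vale.Agent.N308 (word)
open scoped NNRat

/-- On input `x` the machine has stopped after `T` steps, whatever the coins are. -/
def Halts (M : Machine) (x : List ℕ) (T : ℕ) : Prop :=
  ∀ ρ : Fin T → Bool, (M.run (word x) (List.ofFn ρ)).l = none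

/-- The probability, over `T` fair coins, that on input `x` the word on stack `0` after `T` steps
has the property `P`. -/
noncomputable def prob (M : Machine) (x : List ℕ) (T : ℕ) (P : List Bool → Prop) : ℝ :=
  Nat.card {ρ : Fin T → Bool // P ((M.run (word x) (List.ofFn ρ)).stk 0)} / 2 ^ T

/-- There is a sampler which runs in time polynomial in the length of the input (`γ` and the
instance `x`) and outputs every `s : S x` with probability proportional to `w x s`, up to a
relative error `γ`. -/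
def Sampler {I : Type} (code : I → List ℕ) {S : I → Type} [∀ x, Fintype (S x)]
    (out : ∀ x, S x → List ℕ) (w : ∀ x, S x → ℝ) : Prop :=
  ∃ (M : Machine) (d : ℕ), ∀ (x : I) (γ : ℚ≥0), 0 < γ → γ < 1 → 0 < ∑ s, w x s → ∀ T : ℕ,
    (word (γ.num :: γ.den :: code x)).length ^ d ≤ T →
      Halts M (γ.num :: γ.den :: code x) T ∧ ∀ s : S x,
        |prob M (γ.num :: γ.den :: code x) T (fun u => u = word (out x s)) - w x s / ∑ s, w x s| ≤
          γ * (w x s / ∑ s, w x s)

theorem word_eq (l : List ℕ) : word l = enc l := by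
  induction l with
  | nil => rfl
  | cons a l ih => rw [word, pair_eq, ih]; rfl

theorem word_inj {l l' : List ℕ} (h : word l = word l') : l = l' := by
  induction l generalizing l' with
  | nil =>
    rcases l' with _ | ⟨b, l'⟩
    · rfl
    · rw [word, word, pair_eq] at h
      have := congrArg List.length h
      simp at this
  | cons a l ih =>
    rcases l' with _ | ⟨b, l'⟩
    · rw [word, word, pair_eq] at h
      have := congrArg List.length h
      simp at this
    · rw [word, word, pair_eq, pair_eq] at h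
      obtain ⟨h1, h2⟩ := pr_inj h
      rw [ih h2, ← val_bits a, h1, val_bits]

theorem prob_eq (M : Machine) (x : List ℕ) (T : ℕ) (P : List Bool → Prop) :
    prob M x T P = frq T fun ρ => P ((M.run (enc x) ρ).stk 0) := by
  rw [prob, word_eq, frq_eq T fun ρ => P ((M.run (enc x) ρ).stk 0),
    mul_div_cancel_right₀ _ (by positivity)]

theorem inv_lt {q : ℚ≥0} (h : 0 < q) : 1 / (q : ℝ) < (q.den / q.num + 1 : ℕ) := by
  have h1 : 0 < q.num := NNRat.num_pos.2 h
  rw [NNRat.cast_def, one_div_div, div_lt_iff₀ (by exact_mod_cast h1), mul_comm]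
  exact_mod_cast Nat.lt_mul_div_succ q.den h1

theorem half_pow_le {q : ℚ≥0} (h : 0 < q) : (1 / 2 : ℝ) ^ Nat.size (q.den / q.num) ≤ q := by
  have h0 : (0 : ℝ) < q := by exact_mod_cast h
  have h5 : ((q.den / q.num + 1 : ℕ) : ℝ) ≤ 2 ^ Nat.size (q.den / q.num) := by
    exact_mod_cast Nat.lt_size_self _
  rw [one_div_pow]
  exact (one_div_le h0 (by positivity)).1 ((inv_lt h).le.trans h5)

theorem time_bound {a n : ℕ} {μ : ℝ} (c c' : ℕ) (h3 : 3 ≤ μ) (ha : a ≤ μ) (hn : (n : ℝ) + 2 ≤ 3 * μ) :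
    (((a + pb (c + 1) n + 2) ^ c' : ℕ) : ℝ) ≤ μ ^ ((2 * (c + 1) + 1) * c') := by
  rw [pow_mul]
  unfold pb
  push_cast
  refine pow_le_pow_left₀ (by positivity) ?_ c'
  have b1 : ((n : ℝ) + 2) ^ (c + 1) ≤ μ ^ (2 * (c + 1)) := by
    rw [pow_mul]
    exact pow_le_pow_left₀ (by positivity) (by nlinarith) _
  have b2 : μ ≤ μ ^ (2 * (c + 1)) := le_self_pow₀ (by linarith) (by omega)
  rw [pow_succ μ]
  nlinarith

theorem le_pb (c n : ℕ) : n ≤ pb (c + 1) n ∧ pb c n ≤ pb (c + 1) n :=
  ⟨(Nat.le_add_right n 2).trans (Nat.le_self_pow (by omega) _),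
    Nat.pow_le_pow_right (by omega) (by omega)⟩

theorem pt_pb {β : Type} [Enc β] {f : β → ℕ} (hf : PT ∅ f) (c : ℕ) : PT ∅ fun x => pb c (f x) :=
  (hf.add (PT.const 2)).powConst c

theorem pt_un {g : List ℕ → ℕ} (hg : PT ∅ g) :
    PT ∅ fun s : List ℕ × List Bool => Un.mk (min (g s.1) s.2.length) :=
  PT.mkUn (PT.min (hg.comp PT.fst') (PT.length PT.snd'))
    ((PBd.length (A := ∅) PT.snd').mono fun _ => min_le_right _ _)

theorem pt_nth (i : ℕ) : PT ∅ fun y : List ℕ => y.getD i 0 := pt_get PT.id (PT.const i)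

theorem sampler_of {I : Type} {code : I → List ℕ} {S : I → Type} [∀ x, Fintype (S x)]
    {out : ∀ x, S x → List ℕ} {w : ∀ x, S x → ℝ} {d : List ℕ → ℕ} {W : List ℕ × List Bool → ℕ}
    (hS : Smp d W) {post : List ℕ × List Bool → List ℕ} (hp : PT ∅ post) (b : ∀ x, S x → List Bool)
    (hb : ∀ x s, (b x s).length = d (code x)) (h1 : ∀ x s u, post (code x, u) = out x s ↔ u = b x s)
    (c : I → ℝ) (c0 : ∀ x, 0 < c x) (h2 : ∀ x s, (W (code x, b x s) : ℝ) = c x * w x s)
    (h3 : ∀ x, (W (code x, []) : ℝ) = c x * ∑ s, w x s) : Sampler code out w := by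
  obtain ⟨g, c₀, hg, H⟩ := hS
  have hl : PT ∅ fun y : List ℕ => Nat.size (y.getD 1 0 / y.getD 0 0) :=
    ((pt_nth 1).div (pt_nth 0)).natSize
  have hd : PT ∅ fun y : List ℕ => y.drop 2 := PT.id.drop (PT.const 2)
  have hF : PT ∅ fun s : List ℕ × List Bool => post (s.1.drop 2, g ((s.1.drop 2,
      ⟨min (Nat.size (s.1.getD 1 0 / s.1.getD 0 0)) s.2.length⟩), s.2)) :=
    hp.comp ((hd.comp PT.fst').pair (hg.comp (((hd.comp PT.fst').pair (pt_un hl)).pair PT.snd')))
  obtain ⟨M, c', HM⟩ := exists_machine (pt_pb (hd.size.add hl) (c₀ + 1)) hF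
  refine ⟨M, (2 * (c₀ + 1) + 1) * c', fun x δ h4 _ hZ T hT => ?_⟩
  obtain ⟨h5, h6⟩ := HM (δ.num :: δ.den :: code x) T (by
    have k1 : 0 < Nat.size δ.den := Nat.size_pos.2 δ.den_pos
    have k2 := Nat.size_le_size (Nat.div_le_self δ.den δ.num)
    have k3 : esize (δ.num :: δ.den :: code x) =
        2 * Nat.size δ.num + (2 * Nat.size δ.den + esize (code x) + 1) + 1 := by
      simp only [esize_list_cons, esize_nat]
    rw [word_eq] at hT
    refine le_trans (Nat.cast_le.1 ((time_bound (μ := esize (δ.num :: δ.den :: code x)) c₀ c' ?_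
      le_rfl ?_).trans_eq (Nat.cast_pow _ _).symm)) hT
    · exact_mod_cast (show 3 ≤ esize (δ.num :: δ.den :: code x) by omega)
    · exact_mod_cast (show esize (code x) + Nat.size (δ.den / δ.num) + 2 ≤
        3 * esize (δ.num :: δ.den :: code x) by omega))
  refine ⟨by rwa [Halts, word_eq], fun s => ?_⟩
  have k0 : (0 : ℝ) < W (code x, []) := h3 x ▸ mul_pos (c0 x) hZ
  have k1 := H (code x) (Nat.size (δ.den / δ.num)) _ (le_pb c₀ _).2 (by exact_mod_cast k0) _
    (hb x s)
  have k2 : (W (code x, b x s) : ℝ) / W (code x, []) = w x s / ∑ s, w x s := by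
    rw [h2, h3, mul_div_mul_left _ _ (c0 x).ne']
  rw [prob_eq, h6 fun u => u = word (out x s), frq_eq_Ex, ← k2]
  refine le_trans (le_of_eq ?_) (k1.trans
    (mul_le_mul_of_nonneg_right (half_pow_le h4) (by positivity)))
  refine congrArg (fun r : ℝ => |r - _|) (Ex_congr fun ρ hρ => congrArg ind (propext ?_))
  have h8 : esize (code x) + Nat.size (δ.den / δ.num) ≤ ρ.length := (le_pb c₀ _).1.trans hρ.ge
  simp only [List.drop_succ_cons, List.drop_zero, List.getD_cons_succ, List.getD_cons_zero]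
  rw [min_eq_left (by omega), ← h1, ← word_eq]
  exact ⟨word_inj, congrArg word⟩

end Vale.Agent.N308S
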