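import Vale.Agent.N308S.Red
import Vale.Agent.N308S.Brg

/-!
The sampler for weighted graphs with given degrees.
-/

namespace Vale.Agent.N308S

open Finset Vale.Agent.Lib.PTM Vale.Agent.Lib.PolyTime Vale.Agent.P308 Vale.Agent.P308.Poly
open Vale.Agent.N308 (word table graphCode matrixCode weight factorSum)
open scoped NNRat

/-! ### Reading the input -/

theorem length_rows {n : ℕ} (F : Fin n → Fin n → ℕ) : (table F).length = n * n := by
  simp [table, List.length_flatMap]

theorem getD_rows {n : ℕ} (F : Fin n → Fin n → ℕ) (x y : Fin n) :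
    (table F).getD (x * n + y) 0 = F x y := by
  unfold table
  rw [List.getD_eq_getElem?_getD, getElem?_flatMap_const (n := n) (by simp) _ _ y.2]
  simp

theorem idx_lt {n : ℕ} (x y : Fin n) : x * n + y < n * n :=
  lt_of_lt_of_le (Nat.add_lt_add_left y.2 _) (by
    rw [← Nat.succ_mul]; exact Nat.mul_le_mul_right _ x.2)

/-- the number of vertices -/
def nv (y : List ℕ) : ℕ := min (y.getD 0 0) y.length

theorem pu_nv : PU nv := PU.min (pt_nth 0) ⟨PT.id.length, PBd.length (A := ∅) PT.id⟩

theorem pt_idx {β : Type} [Enc β] {n a b : β → ℕ} (hn : PT ∅ n) (ha : PT ∅ a) (hb : PT ∅ b) :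
    PT ∅ fun x => a x * n x + b x := (ha.mul hn).add hb

/-! ### Graphs with given degrees -/

/-- pairs of vertices as pairs of numbers -/
def emb (n : ℕ) : Fin n × Fin n ↪ ℕ × ℕ := Fin.valEmbedding.prodMap Fin.valEmbedding

theorem emb_apply {n : ℕ} (p : Fin n × Fin n) : emb n p = (p.1.1, p.2.1) := rfl

theorem prs_eq (n : ℕ) : prs n = (univ.filter fun p : Fin n × Fin n => p.1 < p.2).map (emb n) := by
  ext ⟨a, b⟩
  simp only [prs, mem_filter, mem_product, mem_range, mem_map, mem_univ, true_and, emb_apply,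
    Prod.mk.injEq]
  constructor
  · rintro ⟨⟨h1, h2⟩, h3⟩
    exact ⟨(⟨a, h1⟩, ⟨b, h2⟩), h3, rfl, rfl⟩
  · rintro ⟨p, h, rfl, rfl⟩
    exact ⟨⟨p.1.2, p.2.2⟩, h⟩

open Classical in
/-- the edges as increasing pairs -/
noncomputable def eds {n : ℕ} (H : SimpleGraph (Fin n)) : Finset (Fin n × Fin n) :=
  univ.filter fun p => p.1 < p.2 ∧ H.Adj p.1 p.2

open Classical in
theorem dg_eds {n : ℕ} (H : SimpleGraph (Fin n)) (v : Fin n) :
    dg ((eds H).map (emb n)) v = H.degree v := by
  rw [dg, filter_map, filter_map, card_map, card_map, ← SimpleGraph.card_neighborFinset_eq_degree,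
    ← card_filter_add_card_filter_not (s := H.neighborFinset v) fun u => v < u]
  congr 1
  · refine card_nbij' (fun p => p.2) (fun u => (v, u)) (fun p hp => ?_) (fun u hu => ?_)
      (fun p hp => ?_) fun u _ => rfl
    · simp only [eds, coe_filter, mem_filter, mem_univ, true_and, Set.mem_ofPred_eq,
        Function.comp, emb_apply, Fin.val_inj, SimpleGraph.mem_neighborFinset] at hp ⊢
      exact hp.2 ▸ hp.1.symm
    · simpa [eds, emb_apply, and_comm] using hu
    · simp only [coe_filter, Set.mem_ofPred_eq, Function.comp, emb_apply, Fin.val_inj] at hp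
      exact Prod.ext hp.2.symm rfl
  · refine card_nbij' (fun p => p.1) (fun u => (u, v)) (fun p hp => ?_) (fun u hu => ?_)
      (fun p hp => ?_) fun u _ => rfl
    · simp only [eds, coe_filter, mem_filter, mem_univ, true_and, Set.mem_ofPred_eq,
        Function.comp, emb_apply, Fin.val_inj, SimpleGraph.mem_neighborFinset] at hp ⊢
      exact hp.2 ▸ ⟨hp.1.2.symm, hp.1.1.not_gt⟩
    · simp only [eds, coe_filter, mem_filter, mem_univ, true_and, Set.mem_ofPred_eq,
        Function.comp, emb_apply, SimpleGraph.mem_neighborFinset, and_true] at hu ⊢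
      exact ⟨lt_of_le_of_ne (not_lt.1 hu.2) hu.1.ne', hu.1.symm⟩
    · simp only [coe_filter, Set.mem_ofPred_eq, Function.comp, emb_apply, Fin.val_inj] at hp
      exact Prod.ext rfl hp.2.symm

open Classical in
/-- the weight of a graph, with two weights for every pair -/
noncomputable def wt2 {n : ℕ} (a b : ℕ → ℕ → ℕ) (f : ℕ → ℕ) (H : SimpleGraph (Fin n)) : ℕ :=
  if ∀ v, H.degree v = f v then ∏ p : Fin n × Fin n with p.1 < p.2,
    if H.Adj p.1 p.2 then a p.1 p.2 else b p.1 p.2 else 0

theorem fac_eq (n : ℕ) (a b : ℕ → ℕ → ℕ) (f : ℕ → ℕ) :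
    fac a b (prs n) (fc n f) = ∑ H : SimpleGraph (Fin n), wt2 a b f H := by
  classical
  have hadj : ∀ (H : SimpleGraph (Fin n)) i j, H.Adj i j ↔ (i, j) ∈ eds H ∨ (j, i) ∈ eds H := by
    intro H i j
    simp only [eds, mem_filter, mem_univ, true_and]
    exact ⟨fun h => (lt_or_gt_of_ne h.ne).imp (⟨·, h⟩) (⟨·, h.symm⟩),
      fun h => h.elim (·.2) (·.2.symm)⟩
  symm
  refine sum_bij (fun H _ => (eds H).map (emb n)) (fun H _ => ?_) (fun H _ H' _ h => ?_)
    (fun T hT => ?_) fun H _ => ?_
  · rw [mem_powerset, prs_eq, map_subset_map]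
    exact fun p hp => mem_filter.2 ⟨mem_univ _, (mem_filter.1 hp).2.1⟩
  · ext i j
    rw [hadj, hadj, map_injective _ h]
  · rw [mem_powerset, prs_eq, subset_map_iff] at hT
    obtain ⟨U, hU, rfl⟩ := hT
    have h1 : ∀ p ∈ U, p.1 < p.2 := fun p hp => (mem_filter.1 (hU hp)).2
    refine ⟨SimpleGraph.fromRel fun i j => (i, j) ∈ U, mem_univ _, congrArg _ ?_⟩
    ext p
    simp only [eds, mem_filter, mem_univ, true_and, SimpleGraph.fromRel_adj]
    exact ⟨fun h => h.2.2.resolve_right fun h' => (h1 _ h').not_gt h.1,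
      fun h => ⟨h1 p h, (h1 p h).ne, Or.inl h⟩⟩
  · refine if_congr ⟨fun h v => ?_, fun h v => ?_⟩ ?_ rfl
    · by_cases hv : v < n
      · have h1 := H.degree_lt_card_verts ⟨v, hv⟩
        have h2 := h ⟨v, hv⟩
        rw [Fintype.card_fin] at h1
        rw [fc, if_pos hv, dg_eds H ⟨v, hv⟩]
        dsimp only at h2
        omega
      · rw [fc, if_neg hv, dg, filter_eq_empty_iff.2, filter_eq_empty_iff.2]
        · rfl
        all_goals
          intro e he h'
          obtain ⟨p, -, rfl⟩ := mem_map.1 he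
          exact hv (h' ▸ Fin.is_lt _)
    · have h1 := H.degree_lt_card_verts v
      have h2 := h v
      rw [Fintype.card_fin] at h1
      rw [fc, if_pos v.2, dg_eds] at h2
      omega
    · rw [prod_ite, prs_eq, ← Finset.map_sdiff, prod_map, prod_map, filter_filter, filter_filter]
      congr 1
      refine prod_congr ?_ fun _ _ => rfl
      ext p
      simp only [eds, mem_filter, mem_univ, true_and, mem_sdiff]
      tauto

/-- degrees -/
def fR (y : List ℕ) (v : ℕ) : ℕ := y.getD (nv y * nv y + nv y * nv y + v + 1) 0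
/-- numerators -/
def aR (y : List ℕ) (i j : ℕ) : ℕ := y.getD (i * nv y + j + 1) 0
/-- denominators -/
def bR (y : List ℕ) (i j : ℕ) : ℕ := y.getD (nv y * nv y + (i * nv y + j) + 1) 0

/-- the numerators of the pairs which are not excluded by `p` -/
def aP (z : List ℕ × List Bool) (i j : ℕ) : ℕ :=
  if z.2.getD (i * nv z.1 + j) true && z.2.getD (j * nv z.1 + i) true then aR z.1 i j else 0
/-- the denominators of the pairs which are not forced by `p` -/
def bP (z : List ℕ × List Bool) (i j : ℕ) : ℕ :=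
  if z.2.getD (i * nv z.1 + j) false || z.2.getD (j * nv z.1 + i) false then 0 else bR z.1 i j
/-- no loop is forced -/
def dP (z : List ℕ × List Bool) : ℕ :=
  ∏ i ∈ range (nv z.1), if z.2.getD (i * nv z.1 + i) false then 0 else 1

/-- the weight of the graphs whose adjacency matrix starts with the word -/
noncomputable def WW (z : List ℕ × List Bool) : ℕ :=
  dP z * (fF (nv z.1) (fR z.1) * fac (aP z) (bP z) (prs (nv z.1)) (fc (nv z.1) (fR z.1)))

/-- the weight of a full adjacency matrix -/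
def ww (z : List ℕ × List Bool) : ℕ :=
  dP z * (fF (nv z.1) (fR z.1) * ((∏ v ∈ range (nv z.1),
    if ∑ j ∈ range (nv z.1), (z.2.getD (v * nv z.1 + j) false).toNat = fR z.1 v then 1 else 0) *
      ∏ i ∈ range (nv z.1), ∏ j ∈ range (nv z.1), if i < j then aP z i j + bP z i j else 1))

section pt

variable {β : Type} [Enc β]

theorem pt_prodR {N : β → ℕ} (hN : PU N) {g : β → ℕ → ℕ} (hg : PT ∅ fun z : β × ℕ => g z.1 z.2) :
    PT ∅ fun x => ∏ i ∈ range (N x), g x i :=
  (PT.map (f := g) (PT.range hN.pt hN.bd) hg).prod.congr fun _ => rfl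

theorem pt_sumR {N : β → ℕ} (hN : PU N) {g : β → ℕ → ℕ} (hg : PT ∅ fun z : β × ℕ => g z.1 z.2) :
    PT ∅ fun x => ∑ i ∈ range (N x), g x i :=
  (PT.map (f := g) (PT.range hN.pt hN.bd) hg).sum.congr fun _ => rfl

theorem pt_fR : PT ∅ fun z : List ℕ × ℕ => fR z.1 z.2 := by
  have hn : PT ∅ fun z : List ℕ × ℕ => nv z.1 := pu_nv.pt.comp PT.fst'
  exact pt_get PT.fst' ((((hn.mul hn).add (hn.mul hn)).add PT.snd').add (PT.const 1))

theorem pt_bR : PT ∅ fun z : List ℕ × ℕ × ℕ => bR z.1 z.2.1 z.2.2 := by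
  have hn : PT ∅ fun z : List ℕ × ℕ × ℕ => nv z.1 := pu_nv.pt.comp PT.fst'
  exact pt_get PT.fst' (((hn.mul hn).add (pt_idx hn PT.snd'.fst PT.snd'.snd)).add (PT.const 1))

theorem pt_bit {z : β → List ℕ × List Bool} {i j : β → ℕ} (hz : PT ∅ z) (hi : PT ∅ i) (hj : PT ∅ j)
    (c : Bool) : PT ∅ fun x => (z x).2.getD (i x * nv (z x).1 + j x) c :=
  PT.getD hz.snd (pt_idx (pu_nv.pt.comp hz.fst) hi hj) (PT.const c)

theorem pt_aP : PT ∅ fun z : (List ℕ × List Bool) × ℕ × ℕ => aP z.1 z.2.1 z.2.2 := by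
  have hn : PT ∅ fun z : (List ℕ × List Bool) × ℕ × ℕ => nv z.1.1 := pu_nv.pt.comp PT.fst'.fst
  exact PT.ite (pt_true ((pt_bit PT.fst' PT.snd'.fst PT.snd'.snd true).and
    (pt_bit PT.fst' PT.snd'.snd PT.snd'.fst true)))
    (pt_get PT.fst'.fst ((pt_idx hn PT.snd'.fst PT.snd'.snd).add (PT.const 1)))
    (PT.const 0)

theorem pt_bP : PT ∅ fun z : (List ℕ × List Bool) × ℕ × ℕ => bP z.1 z.2.1 z.2.2 :=
  PT.ite (pt_true ((pt_bit PT.fst' PT.snd'.fst PT.snd'.snd false).or
    (pt_bit PT.fst' PT.snd'.snd PT.snd'.fst false))) (PT.const 0)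
    (pt_bR.comp (PT.fst'.fst.pair PT.snd'))

theorem pu_nv' : PU fun z : List ℕ × List Bool => nv z.1 := pu_nv.comp PT.fst'

theorem pt_dP : PT ∅ dP :=
  pt_prodR (g := fun (z : List ℕ × List Bool) i => if z.2.getD (i * nv z.1 + i) false then 0 else 1)
    pu_nv' (PT.ite (pt_true (pt_bit PT.fst' PT.snd' PT.snd' false)) (PT.const 0) (PT.const 1))

theorem pt_fR' : PT ∅ fun z : (List ℕ × List Bool) × ℕ => fR z.1.1 z.2 :=
  pt_fR.comp (PT.fst'.fst.pair PT.snd')

theorem apx_WW : Apx WW :=
  (apx_fac pu_nv' pt_aP pt_bP (f := fun z : List ℕ × List Bool => fR z.1) pt_fR').mul pt_dP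

theorem pt_toNat {g : β → Bool} (hg : PT ∅ g) : PT ∅ fun x => (g x).toNat :=
  (hg.cond (PT.const 1) (PT.const 0)).congr fun x => by cases g x <;> rfl

theorem pt_ww : PT ∅ ww := by
  have h1 : PT ∅ fun u : (List ℕ × List Bool) × ℕ =>
      ∑ j ∈ range (nv u.1.1), (u.1.2.getD (u.2 * nv u.1.1 + j) false).toNat :=
    pt_sumR (g := fun (u : (List ℕ × List Bool) × ℕ) j =>
      (u.1.2.getD (u.2 * nv u.1.1 + j) false).toNat) (pu_nv'.comp PT.fst')
      (pt_toNat (pt_bit PT.fst'.fst PT.fst'.snd PT.snd' false))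
  have h0 : PT ∅ fun u : ((List ℕ × List Bool) × ℕ) × ℕ => (u.1.1, u.1.2, u.2) :=
    PT.fst'.fst.pair (PT.fst'.snd.pair PT.snd')
  have h2 : PT ∅ fun u : (List ℕ × List Bool) × ℕ =>
      ∏ j ∈ range (nv u.1.1), if u.2 < j then aP u.1 u.2 j + bP u.1 u.2 j else 1 :=
    pt_prodR (g := fun (u : (List ℕ × List Bool) × ℕ) j =>
      if u.2 < j then aP u.1 u.2 j + bP u.1 u.2 j else 1) (pu_nv'.comp PT.fst')
      (PT.ite (PT.fst'.snd.lt PT.snd') ((pt_aP.comp h0).add (pt_bP.comp h0)) (PT.const 1))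
  exact pt_dP.mul ((pt_fF pu_nv' (f := fun z : List ℕ × List Bool => fR z.1) pt_fR').mul
    ((pt_prodR (g := fun (z : List ℕ × List Bool) v => if ∑ j ∈ range (nv z.1),
      (z.2.getD (v * nv z.1 + j) false).toNat = fR z.1 v then 1 else 0) pu_nv'
      (PT.ite (h1.eqNat pt_fR') (PT.const 1) (PT.const 0))).mul
      (pt_prodR (g := fun (z : List ℕ × List Bool) i => ∏ j ∈ range (nv z.1),
        if i < j then aP z i j + bP z i j else 1) pu_nv' h2)))

end pt

theorem getD_of_lt {l : List Bool} {k : ℕ} (h : k < l.length) (c c' : Bool) :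
    l.getD k c = l.getD k c' := by
  rw [List.getD_eq_getElem _ _ h, List.getD_eq_getElem _ _ h]

open Classical in
theorem prefix_iff {n : ℕ} (H : SimpleGraph (Fin n)) {p : List Bool} (hp : p.length ≤ n * n) :
    p <+: adjBits H ↔
      ∀ i j : Fin n, p.getD (i * n + j) (decide (H.Adj i j)) = decide (H.Adj i j) := by
  rw [List.prefix_iff_getElem?]
  refine ⟨fun h i j => ?_, fun h k hk => ?_⟩
  · by_cases hk : i * n + j < p.length
    · rw [List.getD_eq_getElem _ _ hk, ← getD_adjBits, List.getD_eq_getElem?_getD, h _ hk]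
      rfl
    · exact List.getD_eq_default _ _ (not_lt.1 hk)
  · have h0 : 0 < n := Nat.pos_of_ne_zero fun e => by rw [e] at hp; omega
    have h1 : k / n < n := Nat.div_lt_of_lt_mul (by omega)
    have h2 := h ⟨k / n, h1⟩ ⟨k % n, Nat.mod_lt _ h0⟩
    have h3 := getD_adjBits H ⟨k / n, h1⟩ ⟨k % n, Nat.mod_lt _ h0⟩
    have h4 : k < (adjBits H).length := by rw [length_adjBits]; omega
    simp only [Nat.div_add_mod'] at h2 h3
    rw [List.getD_eq_getElem _ _ hk] at h2
    rw [List.getD_eq_getElem _ _ h4] at h3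
    rw [List.getElem?_eq_getElem h4, h3, h2]

theorem adjBits_inj {n : ℕ} {H H' : SimpleGraph (Fin n)} (h : adjBits H = adjBits H') : H = H' := by
  ext i j
  have := getD_adjBits H i j
  rw [h, getD_adjBits] at this
  exact (decide_eq_decide.1 this).symm

theorem WW_eq {y : List ℕ} {n : ℕ} (hn : nv y = n) {p : List Bool} (hp : p.length ≤ n * n) :
    WW (y, p) = ∑ H : SimpleGraph (Fin n),
      fF n (fR y) * wt2 (aR y) (bR y) (fR y) H * if p <+: adjBits H then 1 else 0 := by
  classical
  subst hn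
  rw [WW, fac_eq, mul_sum, mul_sum]
  refine sum_congr rfl fun H _ => ?_
  dsimp only
  split_ifs with h
  · rw [prefix_iff H hp] at h
    rw [mul_one, dP, prod_eq_one fun i hi => if_neg ?_, one_mul, wt2, wt2]
    · refine congrArg _ (if_congr Iff.rfl (prod_congr rfl fun q _ => ?_) rfl)
      have h1 := h q.1 q.2
      have h2 := h q.2 q.1
      by_cases h3 : H.Adj q.1 q.2
      · rw [decide_eq_true h3] at h1
        rw [decide_eq_true h3.symm] at h2
        rw [if_pos h3, if_pos h3, aP, if_pos (by rw [h1, h2]; rfl)]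
      · rw [decide_eq_false h3] at h1
        rw [decide_eq_false fun h => h3 h.symm] at h2
        rw [if_neg h3, if_neg h3, bP, if_neg (by rw [h1, h2]; decide)]
    · have := h ⟨i, mem_range.1 hi⟩ ⟨i, mem_range.1 hi⟩
      rw [decide_eq_false (H.loopless.irrefl _)] at this
      exact fun h' => Bool.false_ne_true (this.symm.trans h')
  · rw [prefix_iff H hp] at h
    obtain ⟨i, j, h⟩ : ∃ i j : Fin (nv y),
        p.getD (i * nv y + j) (decide (H.Adj i j)) ≠ decide (H.Adj i j) := by
      simpa only [not_forall] using h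
    have key : ∀ u v : Fin (nv y), u < v → (if H.Adj u v then aP (y, p) u v else bP (y, p) u v) = 0 →
        wt2 (aP (y, p)) (bP (y, p)) (fR y) H = 0 := fun u v huv h0 => by
      rw [wt2]
      split_ifs
      · exact prod_eq_zero (i := (u, v)) (mem_filter.2 ⟨mem_univ _, huv⟩) h0
      · rfl
    rw [mul_zero]
    rcases lt_trichotomy i j with hij | rfl | hij
    · rw [key i j hij, mul_zero, mul_zero]
      by_cases h3 : H.Adj i j <;> simp [h3, aP, bP] at h ⊢ <;> simp [h]
    · rw [show dP (y, p) = 0 from prod_eq_zero (mem_range.2 i.2) (if_pos (by simpa using h)),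
        zero_mul]
    · rw [key j i hij, mul_zero, mul_zero]
      by_cases h3 : H.Adj i j <;> simp [h3, aP, bP, H.adj_comm j i] at h ⊢ <;> simp [h]

theorem WW_split (y : List ℕ) (p : List Bool) (hp : p.length < nv y * nv y) :
    WW (y, p) = WW (y, p ++ [false]) + WW (y, p ++ [true]) := by
  rw [WW_eq rfl hp.le, WW_eq rfl (by simpa using hp), WW_eq rfl (by simpa using hp),
    ← sum_add_distrib]
  refine sum_congr rfl fun H _ => ?_
  have := prefix_split (s := adjBits H) (p := p) (by rwa [length_adjBits])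
  rw [← mul_add]
  refine congrArg _ ?_
  unfold ind at this
  split_ifs at this ⊢ <;> first | rfl | norm_num at this

theorem WW_leaf {y : List ℕ} {n : ℕ} (hn : nv y = n) (H : SimpleGraph (Fin n)) :
    WW (y, adjBits H) = fF n (fR y) * wt2 (aR y) (bR y) (fR y) H := by
  rw [WW_eq hn (length_adjBits H).le, sum_eq_single H (fun H' _ h => ?_) (by simp),
    if_pos List.prefix_rfl, mul_one]
  rw [if_neg fun h' => h (adjBits_inj (h'.eq_of_length (by simp [length_adjBits]))).symm, mul_zero]

theorem prod_pairs (n : ℕ) (g : ℕ → ℕ → ℕ) :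
    (∏ i ∈ range n, ∏ j ∈ range n, if i < j then g i j else 1) =
      ∏ p : Fin n × Fin n with p.1 < p.2, g p.1 p.2 := by
  rw [prod_filter, Fintype.prod_prod_type, ← Fin.prod_univ_eq_prod_range]
  refine prod_congr rfl fun i _ => ?_
  rw [← Fin.prod_univ_eq_prod_range fun j => if i.1 < j then g i j else 1]
  rfl

theorem ww_leaf (y : List ℕ) (s : List Bool) (hs : s.length = nv y * nv y) :
    ww (y, s) = WW (y, s) := by
  classical
  have h0 : ∀ (i j : Fin (nv y)) c, s.getD (i * nv y + j) c = s.getD (i * nv y + j) false :=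
    fun i j c => getD_of_lt (hs ▸ idx_lt i j) _ _
  by_cases h : ∃ H : SimpleGraph (Fin (nv y)), s = adjBits H
  · obtain ⟨H, rfl⟩ := h
    have h1 : ∀ v : Fin (nv y), ∑ j ∈ range (nv y),
        ((adjBits H).getD (v * nv y + j) false).toNat = H.degree v := fun v => by
      rw [← Fin.sum_univ_eq_sum_range fun j => ((adjBits H).getD (v * nv y + j) false).toNat,
        ← SimpleGraph.card_neighborFinset_eq_degree, SimpleGraph.neighborFinset_eq_filter,
        card_filter]
      refine sum_congr rfl fun j _ => ?_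
      rw [getD_adjBits]
      by_cases h : H.Adj v j <;> simp [h]
    rw [WW_leaf rfl, ww, dP, prod_eq_one fun i hi => if_neg ?_, one_mul, prod_pairs, wt2,
      ← Fin.prod_univ_eq_prod_range fun v => if ∑ j ∈ range (nv y),
        ((adjBits H).getD (v * nv y + j) false).toNat = fR y v then 1 else 0]
    · simp only [h1, Fintype.prod_boole, ite_mul, one_mul, zero_mul]
      refine congrArg _ (if_congr Iff.rfl (prod_congr rfl fun q _ => ?_) rfl)
      simp only [aP, bP, h0 _ _ true, getD_adjBits, H.adj_comm q.2 q.1]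
      by_cases h : H.Adj q.1 q.2 <;> simp [h]
    · rw [getD_adjBits H ⟨i, mem_range.1 hi⟩ ⟨i, mem_range.1 hi⟩]
      simp
  rw [WW_eq rfl hs.le, sum_eq_zero fun H _ => by
    rw [if_neg fun h' => h ⟨H, h'.eq_of_length (by rw [hs, length_adjBits])⟩, mul_zero]]
  by_contra h1
  simp only [ww, mul_eq_zero, not_or, prod_pairs, dP, prod_eq_zero_iff, not_exists, not_and] at h1
  obtain ⟨h1, -, -, h2⟩ := h1
  have h3 : ∀ i j : Fin (nv y), i < j →
      s.getD (i * nv y + j) false = s.getD (j * nv y + i) false := fun i j hij => by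
    have := h2 (i, j) (mem_filter.2 ⟨mem_univ _, hij⟩)
    simp only [aP, bP, h0 _ _ true] at this
    revert this
    cases s.getD (i * nv y + j) false <;> cases s.getD (j * nv y + i) false <;> simp
  refine h ⟨⟨fun i j => s.getD (i * nv y + j) false = true, ⟨fun i j hij => ?_⟩, ⟨fun i hi => ?_⟩⟩,
    List.IsPrefix.eq_of_length ((prefix_iff _ hs.le).2 fun i j => ?_) (by rw [hs, length_adjBits])⟩
  · rcases lt_trichotomy i j with h4 | rfl | h4
    · rw [← h3 i j h4, hij]
    · exact hij
    · rw [h3 j i h4, hij]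
  · exact h1 i (mem_range.2 i.2) (if_pos hi)
  · rw [h0]
    simp

/-- the scaling factor -/
def cR (y : List ℕ) : ℕ :=
  fF (nv y) (fR y) * ∏ i ∈ range (nv y), ∏ j ∈ range (nv y), if i < j then bR y i j else 1

section deg

variable {n : ℕ} (A : Matrix (Fin n) (Fin n) ℚ≥0) (f : Fin n → ℕ)

/-- the input -/
def degCode : List ℕ := matrixCode A ++ List.ofFn f

open Classical in
/-- the weight of a graph -/
noncomputable def wt (H : SimpleGraph (Fin n)) : ℝ :=
  if ∀ v, (H.neighborSet v).ncard = f v then weight A H.Adj else 0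

theorem sum_wt : ∑ H, wt A f H = factorSum A f := by
  classical
  rw [factorSum, sum_filter]
  rfl

theorem degCode_eq : degCode A f = n :: (((table fun i j => (A i j).num) ++
    table fun i j => (A i j).den) ++ List.ofFn f) := rfl

theorem nv_deg : nv (degCode A f) = n := by
  rw [nv, degCode_eq, List.getD_cons_zero, List.length_cons, List.length_append, List.length_ofFn]
  omega

theorem fR_deg (v : Fin n) : fR (degCode A f) v = f v := by
  rw [fR, nv_deg, degCode_eq, List.getD_cons_succ,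
    List.getD_append_right _ _ _ _ (by simp [length_rows]), List.length_append, length_rows,
    length_rows, Nat.add_sub_cancel_left]
  simp

theorem aR_deg (i j : Fin n) : aR (degCode A f) i j = (A i j).num := by
  rw [aR, nv_deg, degCode_eq, List.getD_cons_succ, List.append_assoc,
    List.getD_append _ _ _ _ (by rw [length_rows]; exact idx_lt i j), getD_rows]

theorem bR_deg (i j : Fin n) : bR (degCode A f) i j = (A i j).den := by
  rw [bR, nv_deg, degCode_eq, List.getD_cons_succ, List.append_assoc,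
    List.getD_append_right _ _ _ _ (by simp [length_rows]), length_rows, Nat.add_sub_cancel_left,
    List.getD_append _ _ _ _ (by rw [length_rows]; exact idx_lt i j), getD_rows]

theorem cR_pos : 0 < cR (degCode A f) := by
  rw [cR, nv_deg, prod_pairs]
  exact Nat.mul_pos (fF_pos _ _) (prod_pos fun p _ => by rw [bR_deg]; exact (A _ _).den_pos)

theorem wt_eq (H : SimpleGraph (Fin n)) : ((fF n (fR (degCode A f)) * wt2 (aR (degCode A f))
    (bR (degCode A f)) (fR (degCode A f)) H : ℕ) : ℝ) = cR (degCode A f) * wt A f H := by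
  classical
  rw [cR, nv_deg, prod_pairs, wt, wt2, weight, Nat.cast_mul, Nat.cast_mul, mul_assoc]
  have e : ∀ v, (H.neighborSet v).ncard = H.degree v := fun v => by
    rw [Set.ncard_eq_toFinset_card']
    rfl
  simp only [fR_deg, aR_deg, bR_deg, e]
  refine congrArg _ ?_
  split_ifs
  · rw [← filter_filter, prod_filter (fun p : Fin n × Fin n => H.Adj p.1 p.2), Nat.cast_prod,
      Nat.cast_prod, ← prod_mul_distrib]
    refine prod_congr rfl fun p _ => ?_
    split_ifs
    · rw [NNRat.cast_def, mul_div_cancel₀ _ (by exact_mod_cast (A _ _).den_pos.ne')]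
    · rw [mul_one]
  · simp

theorem WW_nil : (WW (degCode A f, []) : ℝ) = cR (degCode A f) * ∑ H, wt A f H := by
  rw [WW_eq (nv_deg A f) (Nat.zero_le _), Nat.cast_sum, mul_sum]
  exact sum_congr rfl fun H _ => by rw [if_pos List.nil_prefix, mul_one, wt_eq]

end deg

theorem graphCode_eq {n : ℕ} (H : SimpleGraph (Fin n)) :
    graphCode H = n :: (adjBits H).map Bool.toNat := by
  simp only [graphCode, table, adjBits, List.map_flatMap, List.map_map, List.cons.injEq, true_and]
  refine List.flatMap_congr fun i _ => List.map_congr_left fun j _ => ?_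
  by_cases h : H.Adj i j <;> simp [h]

theorem sampler_deg : Sampler
    (fun x : Σ n, Matrix (Fin n) (Fin n) ℚ≥0 × (Fin n → ℕ) => degCode x.2.1 x.2.2)
    (fun x (H : SimpleGraph (Fin x.1)) => graphCode H) fun x H => wt x.2.1 x.2.2 H := by
  refine sampler_of (jvv _ (fun y => nv y * nv y) WW ww (pu_nv.mul pu_nv).pt (pu_nv.mul pu_nv).bd
    apx_WW pt_ww WW_split ww_leaf) (post := fun z => nv z.1 :: z.2.map Bool.toNat)
    (pu_nv'.pt.cons (PT.map (f := fun _ => Bool.toNat) PT.snd' (pt_toNat PT.snd')))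
    (fun _ H => adjBits H) (fun x H => by rw [nv_deg, length_adjBits]) (fun x H u => ?_)
    (fun x => cR (degCode x.2.1 x.2.2)) (fun x => by exact_mod_cast cR_pos x.2.1 x.2.2)
    (fun x H => by rw [WW_leaf (nv_deg x.2.1 x.2.2), wt_eq]) fun x => WW_nil x.2.1 x.2.2
  rw [graphCode_eq, nv_deg, List.cons.injEq, and_iff_right rfl]
  exact (List.map_injective_iff.2 fun a b h => by revert h; cases a <;> cases b <;> simp).eq_iff

/-- **The sampler.** -/
theorem sampler : ∃ (M : Machine) (d : ℕ), ∀ (n : ℕ) (A : Matrix (Fin n) (Fin n) ℚ≥0)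
    (f : Fin n → ℕ) (η : ℚ≥0), 0 < η → η < 1 → 0 < factorSum A f → ∀ T : ℕ,
      (word (η.num :: η.den :: (matrixCode A ++ List.ofFn f))).length ^ d ≤ T →
      (∀ ρ : Fin T → Bool,
        (M.run (word (η.num :: η.den :: (matrixCode A ++ List.ofFn f))) (List.ofFn ρ)).l = none) ∧
      ∀ H : SimpleGraph (Fin n), (∀ v, (H.neighborSet v).ncard = f v) →
        |(Nat.card {ρ : Fin T → Bool // (M.run (word (η.num :: η.den ::
            (matrixCode A ++ List.ofFn f))) (List.ofFn ρ)).stk 0 = word (graphCode H)} : ℝ) / 2 ^ T -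
          weight A H.Adj / factorSum A f| ≤ η * (weight A H.Adj / factorSum A f) := by
  obtain ⟨M, d, h⟩ := sampler_deg
  refine ⟨M, d, fun n A f η h1 h2 h3 T hT => ?_⟩
  obtain ⟨h4, h5⟩ := h ⟨n, A, f⟩ η h1 h2 (sum_wt A f ▸ h3) T hT
  refine ⟨h4, fun H hH => ?_⟩
  have := h5 H
  dsimp only at this
  rwa [sum_wt, wt, if_pos hH] at this

end Vale.Agent.N308S
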