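import Vale.Agent.P308.Unif
import Mathlib.Combinatorics.SimpleGraph.Matching

/-!
Hafnians of natural number weights on finite sets: expansion, transport, the number of matchings,
elimination of a pendant pair, and the replacement of binary weights by a graph.
-/

namespace Vale.Agent.N308S

open Finset Vale.Agent.P308

section basic

variable {V U : Type} [DecidableEq V] [DecidableEq U]

/-- the hafnian of the weights `w` on the set `S` -/
noncomputable def haf (w : V → V → ℕ) (S : Finset V) : ℕ :=
  if h : S.Nonempty then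
    ∑ y ∈ S.erase h.choose, w h.choose y * haf w ((S.erase h.choose).erase y)
  else 1
termination_by S.card
decreasing_by exact lt_of_le_of_lt card_erase_le (card_erase_lt_of_mem h.choose_spec)

theorem haf_empty (w : V → V → ℕ) : haf w ∅ = 1 := by
  rw [haf, dif_neg Finset.not_nonempty_empty]

theorem card_ee {S : Finset V} {x : V} (hx : x ∈ S) (y : V) : ((S.erase x).erase y).card < S.card :=
  lt_of_le_of_lt card_erase_le (card_erase_lt_of_mem hx)

theorem haf_exp {w : V → V → ℕ} (hw : ∀ a b, w a b = w b a) {S : Finset V} {x : V} (hx : x ∈ S) :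
    haf w S = ∑ y ∈ S.erase x, w x y * haf w ((S.erase x).erase y) := by
  induction hn : S.card using Nat.strong_induction_on generalizing S x with
  | _ n ih =>
    have h : S.Nonempty := ⟨x, hx⟩
    rw [haf, dif_pos h]
    have hz := h.choose_spec
    generalize h.choose = z at hz
    by_cases hzx : z = x
    · rw [hzx]
    have h1 : x ∈ S.erase z := mem_erase.2 ⟨fun e => hzx e.symm, hx⟩
    have h2 : z ∈ S.erase x := mem_erase.2 ⟨hzx, hz⟩
    rw [← add_sum_erase _ _ h1, ← add_sum_erase _ _ h2, hw z x,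
      (erase_right_comm : (S.erase x).erase z = (S.erase z).erase x)]
    congr 1
    have e1 : ∀ y ∈ (S.erase z).erase x, w z y * haf w ((S.erase z).erase y) =
        ∑ y' ∈ ((S.erase z).erase x).erase y,
          w z y * w x y' * haf w ((((S.erase z).erase x).erase y).erase y') := by
      intro y hy
      rw [ih _ (hn ▸ card_ee hz y) (mem_erase.2 ⟨(mem_erase.1 hy).1.symm, h1⟩) rfl, mul_sum,
        (erase_right_comm : ((S.erase z).erase y).erase x = ((S.erase z).erase x).erase y)]
      exact sum_congr rfl fun _ _ => (mul_assoc _ _ _).symm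
    have e2 : ∀ y' ∈ (S.erase z).erase x, w x y' * haf w ((S.erase x).erase y') =
        ∑ y ∈ ((S.erase z).erase x).erase y',
          w z y * w x y' * haf w ((((S.erase z).erase x).erase y).erase y') := by
      intro y' hy
      rw [ih _ (hn ▸ card_ee hx y')
        (mem_erase.2 ⟨(mem_erase.1 (mem_of_mem_erase hy)).1.symm, h2⟩) rfl, mul_sum,
        (erase_right_comm : ((S.erase x).erase y').erase z = ((S.erase x).erase z).erase y'),
        (erase_right_comm : (S.erase x).erase z = (S.erase z).erase x)]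
      refine sum_congr rfl fun y _ => ?_
      rw [(erase_right_comm : (((S.erase z).erase x).erase y').erase y = _)]
      ring
    rw [sum_congr rfl e1, sum_congr rfl e2]
    refine sum_comm' fun a b => ?_
    simp only [mem_erase]
    tauto

theorem haf_unique {w : V → V → ℕ} {G : Finset V → ℕ} (h0 : G ∅ = 1)
    (h : ∀ S x, x ∈ S → G S = ∑ y ∈ S.erase x, w x y * G ((S.erase x).erase y)) (S : Finset V) :
    haf w S = G S := by
  induction hn : S.card using Nat.strong_induction_on generalizing S with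
  | _ n ih =>
    rw [haf]
    split_ifs with hS
    · rw [h S _ hS.choose_spec]
      exact sum_congr rfl fun y _ => by rw [ih _ (hn ▸ card_ee hS.choose_spec y) _ rfl]
    · rw [not_nonempty_iff_eq_empty.1 hS, h0]

theorem haf_congr {w w' : V → V → ℕ} {S : Finset V}
    (h : ∀ a ∈ S, ∀ b ∈ S, a ≠ b → w a b = w' a b) : haf w S = haf w' S := by
  induction hn : S.card using Nat.strong_induction_on generalizing S with
  | _ n ih =>
    rw [haf, haf]
    split_ifs with hS
    · refine sum_congr rfl fun y hy => ?_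
      rw [h _ hS.choose_spec y (mem_of_mem_erase hy) (mem_erase.1 hy).1.symm,
        ih _ (hn ▸ card_ee hS.choose_spec y) (fun a ha b hb => h a
          (mem_of_mem_erase (mem_of_mem_erase ha)) b (mem_of_mem_erase (mem_of_mem_erase hb))) rfl]
    · rfl

theorem haf_map {w : V → V → ℕ} (hw : ∀ a b, w a b = w b a) (e : U ↪ V) (S : Finset U) :
    haf (fun a b => w (e a) (e b)) S = haf w (S.map e) := by
  refine haf_unique (G := fun S => haf w (S.map e)) (by simp [haf_empty]) (fun S x hx => ?_) S
  rw [haf_exp hw (mem_map_of_mem e hx), ← map_erase, sum_map]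
  simp only [map_erase]

/-- elimination of a vertex `p` whose only neighbours are `q` and `u`, together with `q` -/
theorem haf_elim {w w' : V → V → ℕ} (hw : ∀ a b, w a b = w b a) (hw' : ∀ a b, w' a b = w' b a)
    {S : Finset V} {p q u : V} (hp : p ∉ S) (hq : q ∉ S) (hpq : p ≠ q) (hu : u ∈ S)
    (h1 : w p q = 1) (h2 : ∀ y ∈ S, y ≠ u → w p y = 0)
    (h3 : ∀ y ∈ S, y ≠ u → w' u y = w u y + w p u * w q y)
    (h4 : ∀ a ∈ S, ∀ b ∈ S, a ≠ u → b ≠ u → w' a b = w a b) :
    haf w (insert p (insert q S)) = haf w' S := by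
  have hqu : q ≠ u := fun e => hq (e ▸ hu)
  rw [haf_exp hw (mem_insert_self p _), erase_insert (by simp [hp, hpq]), sum_insert hq,
    erase_insert hq, h1, one_mul, sum_eq_single_of_mem u hu fun y hy h => by rw [h2 y hy h, zero_mul],
    erase_insert_of_ne hqu, haf_exp hw (mem_insert_self q _),
    erase_insert fun h => hq (mem_of_mem_erase h), haf_exp hw hu, haf_exp hw' hu, mul_sum,
    ← sum_add_distrib]
  refine sum_congr rfl fun y hy => ?_
  rw [h3 y (mem_of_mem_erase hy) (mem_erase.1 hy).1, haf_congr (w := w') (w' := w) fun a ha b hb _ =>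
    h4 a (mem_of_mem_erase (mem_of_mem_erase ha)) b (mem_of_mem_erase (mem_of_mem_erase hb))
      (mem_erase.1 (mem_of_mem_erase ha)).1 (mem_erase.1 (mem_of_mem_erase hb)).1]
  ring

end basic

section count

variable {V : Type} [Fintype V] [DecidableEq V]

/-- `g` describes a matching of `adj` which covers exactly `S` -/
def IsM (adj : V → V → Bool) (S : Finset V) (g : V → V) : Prop :=
  (∀ x, g (g x) = x) ∧ (∀ x, g x = x ↔ x ∉ S) ∧ ∀ x ∈ S, adj x (g x) = true

open Classical in
/-- the number of matchings which cover exactly `S` -/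
noncomputable def cnt (adj : V → V → Bool) (S : Finset V) : ℕ := (univ.filter (IsM adj S)).card

omit [Fintype V] in
theorem IsM.mem {adj : V → V → Bool} {S : Finset V} {g : V → V} (h : IsM adj S g) {x : V}
    (hx : x ∈ S) : g x ∈ S.erase x := by
  have h1 : g x ≠ x := fun e => (h.2.1 x).1 e hx
  refine mem_erase.2 ⟨h1, by_contra fun h2 => h1 ?_⟩
  have := (h.2.1 _).2 h2
  rw [h.1] at this
  exact this.symm

theorem haf_eq_cnt {adj : V → V → Bool} (ha : ∀ a b, adj a b = adj b a) (S : Finset V) :
    haf (fun a b => (adj a b).toNat) S = cnt adj S := by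
  classical
  refine haf_unique ?_ (fun S x hx => ?_) S
  · rw [cnt, card_eq_one]
    refine ⟨id, eq_singleton_iff_unique_mem.2 ⟨by simp [IsM], fun g hg => ?_⟩⟩
    exact funext fun x => ((mem_filter.1 hg).2.2.1 x).2 (notMem_empty x)
  rw [cnt, card_eq_sum_card_fiberwise (f := fun g => g x) (t := S.erase x)
    fun g hg => (mem_filter.1 (mem_coe.1 hg)).2.mem hx]
  refine sum_congr rfl fun y hy => ?_
  obtain ⟨hyx, hy⟩ := mem_erase.1 hy
  cases hxy : adj x y
  · rw [Bool.toNat_false, zero_mul, card_eq_zero, filter_eq_empty_iff]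
    intro g hg e
    have := (mem_filter.1 hg).2.2.2 x hx
    rw [e, hxy] at this
    exact Bool.false_ne_true this
  rw [Bool.toNat_true, one_mul, cnt]
  refine card_nbij' (fun g z => if z = x ∨ z = y then z else g z)
    (fun g z => if z = x then y else if z = y then x else g z) (fun g hg => ?_) (fun g hg => ?_)
    (fun g hg => ?_) fun g hg => ?_
  · obtain ⟨⟨-, h1, h2, h3⟩, h4⟩ : (g ∈ univ ∧ IsM adj S g) ∧ g x = y := by
      simpa only [coe_filter, mem_filter, Set.mem_ofPred_eq] using hg
    have h5 : g y = x := by rw [← h4, h1]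
    simp only [coe_filter, mem_univ, true_and, Set.mem_ofPred_eq, IsM, mem_erase]
    refine ⟨fun z => ?_, fun z => ?_, fun z hz => ?_⟩
    · grind
    · grind
    · grind
  · obtain ⟨h1, h2, h3⟩ : IsM adj ((S.erase x).erase y) g := by
      simpa only [coe_filter, mem_univ, true_and, Set.mem_ofPred_eq] using hg
    simp only [mem_erase] at h2 h3
    simp only [coe_filter, mem_filter, mem_univ, true_and, Set.mem_ofPred_eq, IsM]
    have h4 : g x = x := (h2 x).2 (by simp)
    have h5 : g y = y := (h2 y).2 (by simp)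
    refine ⟨⟨fun z => ?_, fun z => ?_, fun z hz => ?_⟩, by simp⟩
    · grind
    · grind
    · grind
  · obtain ⟨⟨-, h1, h2, h3⟩, h4⟩ : (g ∈ univ ∧ IsM adj S g) ∧ g x = y := by
      simpa only [coe_filter, mem_filter, Set.mem_ofPred_eq] using hg
    funext z
    grind
  · obtain ⟨h1, h2, h3⟩ : IsM adj ((S.erase x).erase y) g := by
      simpa only [coe_filter, mem_univ, true_and, Set.mem_ofPred_eq] using hg
    simp only [mem_erase] at h2 h3
    have h4 : g x = x := (h2 x).2 (by simp)
    have h5 : g y = y := (h2 y).2 (by simp)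
    funext z
    grind

theorem nPM_eq_cnt (adj : V → V → Bool) : nPM adj = cnt adj univ := by
  classical
  unfold nPM cnt
  refine card_bij (fun M _ => M.f) (fun M hM => ?_) (fun M _ M' _ h => PM.ext h) fun g hg => ?_
  · exact mem_filter.2 ⟨mem_univ _, M.inv, fun x => by simp [M.ne x],
      fun x _ => (mem_filter.1 hM).2 x⟩
  · obtain ⟨-, h1, h2, h3⟩ := mem_filter.1 hg
    exact ⟨⟨g, h1, fun x e => (h2 x).1 e (mem_univ x)⟩,
      mem_filter.2 ⟨mem_univ _, fun x => h3 x (mem_univ x)⟩, rfl⟩

open Classical in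
theorem card_matching (G : SimpleGraph V) (S : Finset V) :
    Nat.card {M : G.Subgraph // M.IsMatching ∧ M.verts = S} =
      cnt (fun a b => decide (G.Adj a b)) S := by
  rw [cnt, ← Fintype.card_subtype, ← Nat.card_eq_fintype_card]
  symm
  refine Nat.card_eq_of_bijective (fun g => ⟨⟨S, fun x y => x ∈ S ∧ g.1 x = y, fun h => ?_,
    fun h => h.1, ⟨fun x y h => ?_⟩⟩, fun x hx => ⟨g.1 x, ⟨hx, rfl⟩, fun y hy => hy.2.symm⟩, rfl⟩)
    ⟨fun g g' h => ?_, fun M => ?_⟩
  · exact h.2 ▸ of_decide_eq_true (g.2.2.2 _ h.1)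
  · exact ⟨h.2 ▸ mem_of_mem_erase (g.2.mem h.1), by rw [← h.2, g.2.1]⟩
  · refine Subtype.ext (funext fun x => ?_)
    by_cases hx : x ∈ S
    · have h1 := congrFun (congrFun (congrArg (fun M => M.1.Adj) h) x) (g.1 x)
      simp only [hx, true_and, eq_iff_iff, true_iff] at h1
      exact h1.symm
    · rw [(g.2.2.1 x).2 hx, (g'.2.2.1 x).2 hx]
  · obtain ⟨M, h1, h2⟩ := M
    have h3 : ∀ x, x ∈ S → ∃! y, M.Adj x y := fun x hx => h1 (h2 ▸ mem_coe.2 hx)
    have h4 : ∀ x y, M.Adj x y → x ∈ S := fun x y h => mem_coe.1 (h2 ▸ M.edge_vert h)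
    obtain ⟨g, hg, hg'⟩ : ∃ g : V → V, (∀ x ∈ S, ∀ y, M.Adj x y ↔ g x = y) ∧ ∀ x ∉ S, g x = x := by
      refine ⟨fun x => if h : x ∈ S then (h3 x h).choose else x, fun x hx y => ?_,
        fun x hx => dif_neg hx⟩
      simp only [dif_pos hx]
      exact ⟨fun h => ((h3 x hx).choose_spec.2 y h).symm, fun h => h ▸ (h3 x hx).choose_spec.1⟩
    refine ⟨⟨g, fun x => ?_, fun x => ⟨fun e hx => ?_, hg' x⟩, fun x hx => ?_⟩, ?_⟩
    · by_cases hx : x ∈ S
      · have := ((hg x hx _).2 rfl).symm
        exact (hg _ (h4 _ _ this) _).1 this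
      · rw [hg' x hx, hg' x hx]
    · exact (M.adj_sub ((hg x hx x).2 e)).ne rfl
    · exact decide_eq_true (M.adj_sub ((hg x hx _).2 rfl))
    · refine Subtype.ext (SimpleGraph.Subgraph.ext h2.symm (funext₂ fun x y => propext ?_))
      exact ⟨fun h => (hg x h.1 y).2 h.2, fun h => ⟨h4 _ _ h, (hg x (h4 _ _ h) y).1 h⟩⟩

end count

end Vale.Agent.N308S
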